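import Mathlib

/-! Large sets without square differences. -/

namespace Vale.Agent.P042

/-- `S` residues modulo `Q` with a height below `K` that increases along square differences. -/
def G (Q S K : ℕ) : Prop :=
  ∃ (ι : Type) (_ : Fintype ι) (f : ι → ℤ) (l : ι → ℕ), Fintype.card ι = S ∧ (∀ i, l i < K) ∧
    ∀ i j (x : ℤ), (Q : ℤ) ∣ f i - f j - x ^ 2 → i = j ∨ l i < l j

theorem G.mono {Q S K K' : ℕ} (h : G Q S K) (hK : K ≤ K') : G Q S K' := by
  obtain ⟨ι, _, f, l, h1, h2, h3⟩ := h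
  exact ⟨ι, _, f, l, h1, fun i => (h2 i).trans_le hK, h3⟩

theorem G.one : G 1 1 1 :=
  ⟨Unit, inferInstance, fun _ => 0, fun _ => 0, rfl, fun _ => one_pos, fun _ _ _ _ => Or.inl rfl⟩

theorem G.lex {q s k Q S K : ℕ} (hq : q ≠ 0) (h : G (q ^ 2) s k) (h' : G Q S K) :
    G (q ^ 2 * Q) (s * S) (k * K) := by
  obtain ⟨ι, _, f, l, h1, h2, h3⟩ := h
  obtain ⟨κ, _, g, m, k1, k2, k3⟩ := h'
  refine ⟨ι × κ, inferInstance, fun p => f p.1 + q ^ 2 * g p.2, fun p => l p.1 * K + m p.2,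
    by simp [h1, k1], fun p => ?_, fun p p' x hx => ?_⟩
  · have a1 := h2 p.1
    have a2 := k2 p.2
    nlinarith
  push_cast at hx
  have a1 : ((q ^ 2 : ℕ) : ℤ) ∣ f p.1 - f p'.1 - x ^ 2 := by
    have := (Dvd.intro _ rfl : (q : ℤ) ^ 2 ∣ (q : ℤ) ^ 2 * Q).trans hx
    have e : f p.1 - f p'.1 - x ^ 2 = f p.1 + q ^ 2 * g p.2 - (f p'.1 + q ^ 2 * g p'.2) - x ^ 2 -
        q ^ 2 * (g p.2 - g p'.2) := by ring
    rw [e]
    push_cast
    exact dvd_sub this (Dvd.intro _ rfl)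
  rcases h3 _ _ x a1 with e | e
  · rw [e, sub_self, zero_sub, dvd_neg] at a1
    push_cast at a1
    obtain ⟨y, rfl⟩ := (Int.pow_dvd_pow_iff two_ne_zero).1 a1
    have a2 : (Q : ℤ) ∣ g p.2 - g p'.2 - y ^ 2 := by
      refine Int.dvd_of_mul_dvd_mul_left (a := (q : ℤ) ^ 2) (by positivity) ?_
      have e' : (q : ℤ) ^ 2 * (g p.2 - g p'.2 - y ^ 2) =
          f p.1 + q ^ 2 * g p.2 - (f p'.1 + q ^ 2 * g p'.2) - (q * y) ^ 2 := by
        rw [e]; ring
      rw [e']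
      exact hx
    rcases k3 _ _ y a2 with e' | e'
    · exact Or.inl (Prod.ext e e')
    · right
      simp only [e]
      omega
  · right
    have a2 := k2 p.2
    have a3 : (l p.1 + 1) * K ≤ l p'.1 * K := Nat.mul_le_mul_right _ e
    simp only
    nlinarith

theorem G.pow {q s k : ℕ} (hq : q ≠ 0) (h : G (q ^ 2) s k) (n : ℕ) :
    G ((q ^ 2) ^ n) (s ^ n) (k ^ n) := by
  induction n with
  | zero => simpa using G.one
  | succ n ih =>
    rw [pow_succ' (q ^ 2), pow_succ' s, pow_succ' k]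
    exact h.lex hq ih

theorem G.crt {Q S K Q' S' K' : ℕ} (hc : Nat.Coprime Q Q') (h : G Q S K) (h' : G Q' S' K') :
    G (Q * Q') (S * S') (K + K') := by
  obtain ⟨ι, _, f, l, h1, h2, h3⟩ := h
  obtain ⟨κ, _, g, m, k1, k2, k3⟩ := h'
  obtain ⟨u, v, huv⟩ := Nat.isCoprime_iff_coprime.2 hc
  refine ⟨ι × κ, inferInstance, fun p => v * Q' * f p.1 + u * Q * g p.2, fun p => l p.1 + m p.2,
    by simp [h1, k1], fun p => add_lt_add (h2 _) (k2 _), fun p p' x hx => ?_⟩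
  push_cast at hx
  have a1 : (Q : ℤ) ∣ f p.1 - f p'.1 - x ^ 2 := by
    have := (Dvd.intro _ rfl : (Q : ℤ) ∣ (Q : ℤ) * Q').trans hx
    have e : f p.1 - f p'.1 - x ^ 2 = v * Q' * f p.1 + u * Q * g p.2 -
        (v * Q' * f p'.1 + u * Q * g p'.2) - x ^ 2 +
        Q * (u * (f p.1 - f p'.1 - g p.2 + g p'.2)) := by
      linear_combination (f p'.1 - f p.1) * huv
    rw [e]
    exact dvd_add this (Dvd.intro _ rfl)
  have a2 : (Q' : ℤ) ∣ g p.2 - g p'.2 - x ^ 2 := by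
    have := (Dvd.intro_left _ rfl : (Q' : ℤ) ∣ (Q : ℤ) * Q').trans hx
    have e : g p.2 - g p'.2 - x ^ 2 = v * Q' * f p.1 + u * Q * g p.2 -
        (v * Q' * f p'.1 + u * Q * g p'.2) - x ^ 2 +
        Q' * (v * (g p.2 - g p'.2 - f p.1 + f p'.1)) := by
      linear_combination (g p'.2 - g p.2) * huv
    rw [e]
    exact dvd_add this (Dvd.intro _ rfl)
  rcases h3 _ _ x a1 with e | e <;> rcases k3 _ _ x a2 with e' | e'
  · exact Or.inl (Prod.ext e e')
  · right; simp only [e]; omega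
  · right; simp only [e']; omega
  · right; simp only; omega

theorem G.sq {p k : ℕ} (hp : p.Prime) (h : G p k k) : G (p ^ 2) (k * p) k := by
  obtain ⟨ι, _, f, l, h1, h2, h3⟩ := h
  refine ⟨ι × Fin p, inferInstance, fun a => f a.1 + p * (a.2 : ℕ), fun a => l a.1,
    by simp [h1], fun a => h2 _, fun a b x hx => ?_⟩
  push_cast at hx
  have a1 : (p : ℤ) ∣ f a.1 - f b.1 - x ^ 2 := by
    have := (dvd_pow_self (p : ℤ) two_ne_zero).trans hx
    have e : f a.1 - f b.1 - x ^ 2 = f a.1 + p * (a.2 : ℕ) - (f b.1 + p * (b.2 : ℕ)) - x ^ 2 -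
        p * ((a.2 : ℕ) - (b.2 : ℕ)) := by ring
    rw [e]
    exact dvd_sub this (Dvd.intro _ rfl)
  rcases h3 _ _ x a1 with e | e
  · left
    rw [e, sub_self, zero_sub, dvd_neg] at a1
    obtain ⟨y, rfl⟩ := Int.Prime.dvd_pow' hp a1
    have a2 : (p : ℤ) ∣ ((a.2 : ℕ) : ℤ) - (b.2 : ℕ) := by
      have b1 : (p : ℤ) * p ∣ p * (((a.2 : ℕ) : ℤ) - (b.2 : ℕ)) := by
        have e' : (p : ℤ) * (((a.2 : ℕ) : ℤ) - (b.2 : ℕ)) =
            f a.1 + p * (a.2 : ℕ) - (f b.1 + p * (b.2 : ℕ)) - (p * y) ^ 2 + p ^ 2 * y ^ 2 := by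
          rw [e]; ring
        rw [e', ← pow_two]
        exact dvd_add hx (Dvd.intro _ rfl)
      exact Int.dvd_of_mul_dvd_mul_left (by exact_mod_cast hp.ne_zero) b1
    refine Prod.ext e (Fin.ext ?_)
    have b2 := a.2.2
    have b3 := b.2.2
    have := Int.eq_zero_of_abs_lt_dvd a2 (by rw [abs_lt]; constructor <;> omega)
    omega
  · exact Or.inr e

theorem G.base {Q S K : ℕ} (hQ : 0 < Q) (f l : Fin S → ℕ) (h2 : ∀ i, l i < K)
    (h3 : ∀ i j, ∀ x : Fin Q, f i % Q = (f j + (x : ℕ) ^ 2) % Q → i = j ∨ l i < l j) :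
    G Q S K := by
  refine ⟨Fin S, inferInstance, fun i => f i, l, by simp, h2, fun i j x hx => ?_⟩
  have hQ' : (0 : ℤ) < Q := by exact_mod_cast hQ
  have a1 := Int.emod_nonneg x hQ'.ne'
  have a2 := Int.emod_lt_of_pos x hQ'
  refine h3 i j ⟨(x % Q).toNat, by omega⟩ ?_
  have a3 : ((f j + (x % Q).toNat ^ 2 : ℕ) : ℤ) ≡ f i [ZMOD Q] := by
    push_cast
    rw [Int.toNat_of_nonneg a1]
    have b1 : (f j : ℤ) + x ^ 2 ≡ f i [ZMOD Q] := by
      rw [Int.modEq_iff_dvd]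
      have : (f i : ℤ) - (f j + x ^ 2) = f i - f j - x ^ 2 := by ring
      rw [this]
      exact hx
    exact (((Int.mod_modEq x Q).pow 2).add_left _).trans b1
  exact (Int.natCast_modEq_iff.1 a3).symm

/-- The iterated form. -/
def P (Q S H c : ℕ) : Prop := ∀ t, G (Q ^ t) (S ^ t) (c * H ^ t)

theorem P.of {q s k H : ℕ} (e : ℕ) (hq : q ≠ 0) (h : G (q ^ 2) s k) (hk : k ^ e ≤ H) :
    P ((q ^ 2) ^ e) (s ^ e) H 1 := fun t => by
  rw [← pow_mul, ← pow_mul s, one_mul]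
  refine (h.pow hq (e * t)).mono ?_
  rw [pow_mul]
  exact Nat.pow_le_pow_left hk t

theorem P.crt {Q S c Q' S' c' H : ℕ} (hc : Nat.Coprime Q Q') (h : P Q S H c) (h' : P Q' S' H c') :
    P (Q * Q') (S * S') H (c + c') := fun t => by
  rw [mul_pow, mul_pow, add_mul]
  exact (h t).crt (Nat.Coprime.pow t t hc) (h' t)

theorem G.set {Q S K : ℕ} (hQ : 0 < Q) (h : G Q S K) :
    ∃ A : Finset ℕ, A ⊆ Finset.Icc 1 (Q * K) ∧ A.card = S ∧
      ∀ a ∈ A, ∀ b ∈ A, ∀ n : ℕ, 1 ≤ n → (a : ℤ) - b ≠ (n : ℤ) ^ 2 := by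
  classical
  obtain ⟨ι, _, f, l, h1, h2, h3⟩ := h
  have hQ' : (0 : ℤ) < Q := by exact_mod_cast hQ
  obtain ⟨F, hF⟩ : ∃ F : ι → ℕ, ∀ i, (F i : ℤ) = f i % Q + 1 + Q * l i :=
    ⟨fun i => (f i % Q).toNat + 1 + Q * l i, fun i => by
      push_cast
      rw [Int.toNat_of_nonneg (Int.emod_nonneg _ hQ'.ne')]⟩
  have key : ∀ i j (x : ℤ), (F i : ℤ) - F j = x ^ 2 → i = j := by
    intro i j x hx
    have a1 : (Q : ℤ) ∣ f i - f j - x ^ 2 := by
      rw [← hx, hF, hF, Int.emod_def, Int.emod_def]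
      exact ⟨f i / Q - f j / Q - l i + l j, by ring⟩
    refine (h3 i j x a1).resolve_right fun hl => ?_
    have b1 := Int.emod_nonneg (f j) hQ'.ne'
    have b2 := Int.emod_lt_of_pos (f i) hQ'
    have b3 : (l i : ℤ) + 1 ≤ l j := by exact_mod_cast hl
    have b4 := mul_le_mul_of_nonneg_left b3 hQ'.le
    rw [hF, hF] at hx
    nlinarith [sq_nonneg x]
  refine ⟨Finset.univ.image F, fun a ha => ?_, ?_, fun a ha b hb n hn hab => ?_⟩
  · obtain ⟨i, -, rfl⟩ := Finset.mem_image.1 ha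
    have b1 := Int.emod_nonneg (f i) hQ'.ne'
    have b2 := Int.emod_lt_of_pos (f i) hQ'
    have b3 : (l i : ℤ) + 1 ≤ K := by exact_mod_cast h2 i
    have b4 := mul_le_mul_of_nonneg_left b3 hQ'.le
    have b5 := hF i
    have b6 : (0 : ℤ) ≤ Q * l i := by positivity
    rw [Finset.mem_Icc]
    constructor
    · have : (1 : ℤ) ≤ F i := by linarith
      exact_mod_cast this
    · have : (F i : ℤ) ≤ Q * K := by linarith
      exact_mod_cast this
  · rw [Finset.card_image_of_injective _ fun i j hij => key i j 0 (by simp [hij]),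
      Finset.card_univ, h1]
  · obtain ⟨i, -, rfl⟩ := Finset.mem_image.1 ha
    obtain ⟨j, -, rfl⟩ := Finset.mem_image.1 hb
    have := key i j n hab
    subst this
    rw [sub_self] at hab
    have : (0 : ℤ) < (n : ℤ) ^ 2 := by positivity
    omega

theorem P.bound {Q S H c : ℕ} (h : P Q S H c) (hQ : 0 < Q) (hc : 0 < c) (hB : 1 < Q * H) {γ : ℝ}
    (hγ : 0 ≤ γ) (hS : ((Q * H : ℕ) : ℝ) ^ γ ≤ S) :
    ∃ δ : ℝ, 0 < δ ∧ ∀ N : ℕ, 1 ≤ N → ∃ A : Finset ℕ, A ⊆ Finset.Icc 1 N ∧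
      (∀ a ∈ A, ∀ b ∈ A, ∀ n : ℕ, 1 ≤ n → (a : ℤ) - b ≠ (n : ℤ) ^ 2) ∧
      δ * (N : ℝ) ^ γ ≤ A.card := by
  obtain ⟨B, hBe⟩ : ∃ B, B = Q * H := ⟨_, rfl⟩
  rw [← hBe] at hB hS
  have hB0 : (0 : ℝ) < B := by exact_mod_cast (by omega : 0 < B)
  have hc0 : (0 : ℝ) < c := by exact_mod_cast hc
  have hp : (0 : ℝ) < ((c : ℝ) * B) ^ γ := by positivity
  refine ⟨(((c : ℝ) * B) ^ γ)⁻¹, by positivity, fun N hN => ?_⟩
  by_cases hNc : N < c
  · refine ⟨{1}, by simpa using hN, by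
      intro a ha b hb n hn hab
      rw [Finset.mem_singleton.1 ha, Finset.mem_singleton.1 hb, sub_self] at hab
      have : (0 : ℤ) < (n : ℤ) ^ 2 := by positivity
      omega, ?_⟩
    rw [inv_mul_le_iff₀ hp, Finset.card_singleton, Nat.cast_one, mul_one]
    refine Real.rpow_le_rpow (by positivity) ?_ hγ
    have : N ≤ c * B := by nlinarith
    exact_mod_cast this
  · obtain ⟨t, t1, t2⟩ : ∃ t, c * B ^ t ≤ N ∧ N < c * B ^ (t + 1) := by
      have a0 : N / c ≠ 0 := (Nat.div_pos (by omega) hc).ne'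
      have a1 := Nat.pow_log_le_self B a0
      have a2 := Nat.lt_pow_succ_log_self hB (N / c)
      refine ⟨Nat.log B (N / c), ?_, ?_⟩
      · exact (Nat.mul_le_mul_left c a1).trans (Nat.mul_div_le N c)
      · exact (Nat.div_lt_iff_lt_mul hc).1 a2 |>.trans_eq (mul_comm _ _)
    obtain ⟨A, a1, a2, a3⟩ := (h t).set (by positivity)
    refine ⟨A, a1.trans (Finset.Icc_subset_Icc_right ?_), a3, ?_⟩
    · refine le_trans (le_of_eq ?_) t1
      rw [hBe, mul_pow]; ring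
    · rw [inv_mul_le_iff₀ hp, a2]
      have b1 : (N : ℝ) ≤ (c * B) * B ^ t := by
        have : N ≤ c * B * B ^ t := by rw [mul_assoc, ← pow_succ']; exact t2.le
        exact_mod_cast this
      refine (Real.rpow_le_rpow (by positivity) b1 hγ).trans ?_
      rw [Real.mul_rpow (by positivity) (by positivity), Nat.cast_pow]
      gcongr
      rw [← Real.rpow_natCast, ← Real.rpow_mul hB0.le, mul_comm, Real.rpow_mul hB0.le,
        Real.rpow_natCast]
      exact pow_le_pow_left₀ (by positivity) hS t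

theorem root {B S : ℕ} (h : B ^ 34 ≤ S ^ 45) : (B : ℝ) ^ (34 / 45 : ℝ) ≤ S := by
  have h' : (B : ℝ) ^ 34 ≤ (S : ℝ) ^ 45 := by exact_mod_cast h
  refine le_of_pow_le_pow_left₀ (n := 45) (by norm_num) (by positivity) ?_
  rw [← Real.rpow_natCast, ← Real.rpow_mul (by positivity)]
  norm_num
  exact h'

theorem g16 : G (4 ^ 2) 10 6 :=
  G.base (by norm_num) ![1, 4, 6, 7, 9, 10, 11, 12, 14, 15] ![5, 0, 5, 2, 5, 4, 1, 0, 3, 0]
    (by decide) (by decide +kernel)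

theorem g3 : G (3 ^ 2) (2 * 3) 2 :=
  G.sq (by norm_num) (G.base (by norm_num) ![1, 0] (fun i => i)
    (fun i => i.2) (by decide +kernel))

theorem g7 : G (7 ^ 2) (3 * 7) 3 :=
  G.sq (by norm_num) (G.base (by norm_num) ![2, 1, 0] (fun i => i)
    (fun i => i.2) (by decide +kernel))

theorem g11 : G (11 ^ 2) (4 * 11) 4 :=
  G.sq (by norm_num) (G.base (by norm_num) ![5, 4, 1, 0] (fun i => i)
    (fun i => i.2) (by decide +kernel))

theorem g19 : G (19 ^ 2) (5 * 19) 5 :=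
  G.sq (by norm_num) (G.base (by norm_num) ![7, 17, 6, 1, 0] (fun i => i)
    (fun i => i.2) (by decide +kernel))

theorem g23 : G (23 ^ 2) (5 * 23) 5 :=
  G.sq (by norm_num) (G.base (by norm_num) ![4, 3, 2, 1, 0] (fun i => i)
    (fun i => i.2) (by decide +kernel))

theorem g31 : G (31 ^ 2) (7 * 31) 7 :=
  G.sq (by norm_num) (G.base (by norm_num) ![10, 9, 2, 5, 8, 1, 0] (fun i => i)
    (fun i => i.2) (by decide +kernel))

theorem g43 : G (43 ^ 2) (7 * 43) 7 :=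
  G.sq (by norm_num) (G.base (by norm_num) ![25, 24, 11, 14, 10, 1, 0] (fun i => i)
    (fun i => i.2) (by decide +kernel))

theorem g59 : G (59 ^ 2) (9 * 59) 9 :=
  G.sq (by norm_num) (G.base (by norm_num) ![36, 49, 46, 21, 27, 29, 20, 1, 0] (fun i => i)
    (fun i => i.2) (by decide +kernel))

theorem g71 : G (71 ^ 2) (9 * 71) 9 :=
  G.sq (by norm_num) (G.base (by norm_num) ![38, 49, 9, 30, 6, 20, 37, 1, 0] (fun i => i)
    (fun i => i.2) (by decide +kernel))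

theorem g103 : G (103 ^ 2) (11 * 103) 11 :=
  G.sq (by norm_num) (G.base (by norm_num) ![19, 18, 93, 30, 17, 61, 2, 92, 29, 1, 0] (fun i => i)
    (fun i => i.2) (by decide +kernel))

theorem main : ∃ δ : ℝ, 0 < δ ∧ ∀ N : ℕ, 1 ≤ N → ∃ A : Finset ℕ, A ⊆ Finset.Icc 1 N ∧
      (∀ a ∈ A, ∀ b ∈ A, ∀ n : ℕ, 1 ≤ n → (a : ℤ) - b ≠ (n : ℤ) ^ 2) ∧
      δ * (N : ℝ) ^ (34 / 45 : ℝ) ≤ A.card := by
  have h0 := P.of (H := 2 ^ 26) 10 (by norm_num) g16 (by norm_num)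
  have h1 := P.crt (by norm_num) h0 (P.of 26 (by norm_num) g3 (by norm_num))
  have h2 := P.crt (by norm_num) h1 (P.of 16 (by norm_num) g7 (by norm_num))
  have h3 := P.crt (by norm_num) h2 (P.of 13 (by norm_num) g11 (by norm_num))
  have h4 := P.crt (by norm_num) h3 (P.of 11 (by norm_num) g19 (by norm_num))
  have h5 := P.crt (by norm_num) h4 (P.of 11 (by norm_num) g23 (by norm_num))
  have h6 := P.crt (by norm_num) h5 (P.of 9 (by norm_num) g31 (by norm_num))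
  have h7 := P.crt (by norm_num) h6 (P.of 9 (by norm_num) g43 (by norm_num))
  have h8 := P.crt (by norm_num) h7 (P.of 8 (by norm_num) g59 (by norm_num))
  have h9 := P.crt (by norm_num) h8 (P.of 8 (by norm_num) g71 (by norm_num))
  have h10 := P.crt (by norm_num) h9 (P.of 7 (by norm_num) g103 (by norm_num))
  refine h10.bound (by positivity) (by norm_num) (by norm_num) (by norm_num) ?_
  exact root (by decide +kernel)

end Vale.Agent.P042
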