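import Vale.Agent.P042.OM

/-! Part A: minor and major arc estimates. -/

namespace Vale.Agent.P042

open Finset Polynomial

namespace OA

lemma thin {m : ℕ} (hm : 1 ≤ m) (f : ℕ → ℂ) (L : ℕ) : ∃ L', L ≤ m * L' ∧ m * L' < L + m ∧
    ∑ n ∈ range L, (if m ∣ n then f n else 0) = ∑ n ∈ range L', f (m * n) := by
  induction L with
  | zero => exact ⟨0, by simp, by omega, by simp⟩
  | succ L ih =>
    obtain ⟨L', h1, h2, h3⟩ := ih
    rw [sum_range_succ, h3]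
    split_ifs with h
    · obtain ⟨c, rfl⟩ := h
      have a1 : c ≤ L' := Nat.le_of_mul_le_mul_left h1 hm
      have a2 : L' < c + 1 := Nat.lt_of_mul_lt_mul_left (a := m) (by rw [mul_add, mul_one]; exact h2)
      obtain rfl : c = L' := by omega
      exact ⟨c + 1, by rw [mul_add]; omega, by rw [mul_add]; omega, by rw [sum_range_succ]⟩
    · have : L ≠ m * L' := fun e => h ⟨L', e⟩
      exact ⟨L', by omega, by omega, add_zero _⟩

lemma T_eq (s : ℝ) (h : ℤ[X]) (Q X : ℕ) (θ : ℝ) : T s h Q X θ =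
    ∑ m ∈ Icc 1 Q, (((m : ℝ) * be s Q m : ℝ) : ℂ) * ∑ n ∈ range X,
      (if m ∣ n then e (θ * ((h.eval (n : ℤ) : ℤ) : ℝ)) else 0) * (phi h.natDegree X n : ℂ) := by
  simp only [T, w, mul_sum]
  rw [sum_comm]
  refine sum_congr rfl fun n _ => ?_
  rw [Complex.ofReal_mul, Complex.ofReal_sum, sum_mul, sum_mul]
  refine sum_congr rfl fun m _ => ?_
  split_ifs
  · ring
  · simp

lemma coef {s : ℝ} (hs : 0 ≤ s) (Q : ℕ) {m : ℕ} (hm : 1 ≤ m) :
    ‖(((m : ℝ) * be s Q m : ℝ) : ℂ)‖ ≤ Q := by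
  have hm' : (0 : ℝ) < m := by exact_mod_cast hm
  rw [Complex.norm_real, Real.norm_eq_abs, abs_mul, abs_of_pos hm', ← le_div_iff₀' hm']
  exact abs_be_le hs Q m hm

lemma nphi {k X n : ℕ} (hn : n < X) : ‖(phi k X n : ℂ)‖ ≤ k * (X : ℝ) ^ (k - 1) := by
  rw [Complex.norm_real, Real.norm_eq_abs, abs_of_nonneg (phi_bd hn).1]; exact (phi_bd hn).2

lemma nlip {k X n : ℕ} (hk : 2 ≤ k) (hn : n + 1 < X) :
    ‖(phi k X (n + 1) : ℂ) - phi k X n‖ ≤ 2 * k ^ 2 * (X : ℝ) ^ (k - 2) := by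
  rw [← Complex.ofReal_sub, Complex.norm_real, Real.norm_eq_abs]; exact phi_lip hk hn

lemma low (h : ℤ[X]) : ∃ H : ℝ, 0 ≤ H ∧ ∀ X n : ℕ, n < X →
    |((h.eval (n : ℤ) : ℤ) : ℝ) - h.leadingCoeff * (n : ℝ) ^ h.natDegree| ≤
      H * (X : ℝ) ^ (h.natDegree - 1) := by
  refine ⟨∑ i ∈ range h.natDegree, |(h.coeff i : ℝ)|, sum_nonneg fun _ _ => abs_nonneg _,
    fun X n hn => ?_⟩
  have h1 : (1 : ℝ) ≤ X := by exact_mod_cast (by omega : 1 ≤ X)
  have h2 : (n : ℝ) ≤ X := by exact_mod_cast hn.le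
  rw [eval_eq_sum_range, sum_range_succ, leadingCoeff]
  push_cast
  rw [add_sub_cancel_right, sum_mul]
  refine (abs_sum_le_sum_abs _ _).trans (sum_le_sum fun i hi => ?_)
  rw [abs_mul, abs_of_nonneg (by positivity : (0 : ℝ) ≤ (n : ℝ) ^ i)]
  exact mul_le_mul_of_nonneg_left ((pow_le_pow_left₀ (by positivity) h2 i).trans
    (pow_le_pow_right₀ h1 (by have := mem_range.1 hi; omega))) (abs_nonneg _)

end OA

open OA in
theorem minor {s : ℝ} (hs : 0 ≤ s) {h : ℤ[X]} (hk : 2 ≤ h.natDegree) (Q X : ℕ) (θ : ℝ) {B : ℝ}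
    (hB : ∀ m ∈ Icc 1 Q, ∀ L ≤ X,
      ‖∑ n ∈ range L, e (θ * ((h.eval ((m * n : ℕ) : ℤ) : ℤ) : ℝ))‖ ≤ B) :
    ‖T s h Q X θ‖ ≤ (Q : ℝ) ^ 2 * B * (3 * (h.natDegree : ℝ) ^ 2 * (X : ℝ) ^ (h.natDegree - 1)) := by
  rw [T_eq]
  refine (norm_sum_le _ _).trans ((sum_le_card_nsmul _ _
    (Q * (B * (3 * (h.natDegree : ℝ) ^ 2 * (X : ℝ) ^ (h.natDegree - 1)))) fun m hm => ?_).trans
    (le_of_eq (by simp; ring)))
  have hm1 := (mem_Icc.1 hm).1
  have B0 : 0 ≤ B := (norm_nonneg _).trans (hB m hm 0 (Nat.zero_le _))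
  rw [norm_mul]
  refine mul_le_mul (coef hs Q hm1) ?_ (norm_nonneg _) (by positivity)
  refine (abel _ _ X (B := B) (by positivity) (by positivity) (fun L hL => ?_)
    (fun n hn => nphi hn) fun n hn => nlip hk hn).trans (mul_le_mul_of_nonneg_left ?_ B0)
  · obtain ⟨L', -, h2, h3⟩ := thin hm1 (fun n => e (θ * ((h.eval (n : ℤ) : ℤ) : ℝ))) L
    rw [h3]
    refine hB m hm L' (le_trans (not_lt.1 fun hlt => ?_) hL)
    have := Nat.mul_le_mul_left m (Nat.succ_le_of_lt hlt)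
    have := Nat.le_mul_of_pos_left L hm1
    rw [Nat.mul_succ] at *
    omega
  · obtain ⟨j, hj⟩ := Nat.exists_eq_add_of_le' hk
    rw [hj, show j + 2 - 1 = j + 1 by omega, Nat.add_sub_cancel, pow_succ (X : ℝ)]
    have a1 : (0 : ℝ) ≤ (X : ℝ) ^ j * X := by positivity
    have a2 : (1 : ℝ) ≤ ((j + 2 : ℕ) : ℝ) := by exact_mod_cast (by omega : 1 ≤ j + 2)
    nlinarith [mul_le_mul_of_nonneg_right (le_self_pow₀ a2 two_ne_zero) a1]

open OA in
theorem major {h : ℤ[X]} (hk : 2 ≤ h.natDegree) : ∃ C : ℝ, 0 ≤ C ∧ ∀ (s : ℝ) (Q X r : ℕ) (a : ℤ)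
    (β : ℝ), 0 ≤ s → 1 ≤ X → 1 ≤ r →
    ‖T s h Q X (a / r + β) - (∑ m ∈ Icc 1 Q, (be s Q m : ℂ) * U h a r m) *
      ∑ n ∈ range X, (phi h.natDegree X n : ℂ) *
        e (β * h.leadingCoeff * (n : ℝ) ^ h.natDegree)‖ ≤
      C * (Q : ℝ) ^ 3 * r * (1 + |β| * (X : ℝ) ^ h.natDegree) * (X : ℝ) ^ (h.natDegree - 1) := by
  obtain ⟨H, H0, hH⟩ := low h
  set k := h.natDegree with hkk
  set c : ℝ := ((h.leadingCoeff : ℤ) : ℝ) with hc
  refine ⟨7 * H * k + 6 * k ^ 2 + 14 * k ^ 2 * |c|, by positivity,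
    fun s Q X r a β hs hX hr => ?_⟩
  set Y : ℝ := (X : ℝ) ^ (k - 1) with hY
  have Y0 : 0 ≤ Y := by positivity
  have XY : (X : ℝ) ^ k = X * Y := by rw [hY, ← pow_succ']; congr 1; omega
  have XY2 : (X : ℝ) * (X : ℝ) ^ (k - 2) = Y := by rw [hY, ← pow_succ']; congr 1; omega
  set G : ℕ → ℂ := fun n => (phi k X n : ℂ) * e (β * c * (n : ℝ) ^ k) with hG
  rw [T_eq, sum_mul, ← sum_sub_distrib]
  refine (norm_sum_le _ _).trans ((sum_le_card_nsmul _ _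
    ((7 * H * k + 6 * k ^ 2 + 14 * k ^ 2 * |c|) * (Q : ℝ) ^ 2 * r * (1 + |β| * (X : ℝ) ^ k) * Y)
    fun m hm => ?_).trans (le_of_eq (by simp; ring)))
  obtain ⟨hm1, hm2⟩ := mem_Icc.1 hm
  have hr0 : (r : ℝ) ≠ 0 := by positivity
  set F : ℕ → ℂ := fun n => if m ∣ n then e (((a * h.eval (n : ℤ) : ℤ) : ℝ) / r) else 0 with hF
  have F1 : ∀ n, ‖F n‖ ≤ 1 := fun n => by simp only [hF]; split_ifs <;> simp
  have p1 := period F G (m * r) X (Nat.mul_pos hm1 hr) (u := U h a r m / m) (G0 := k * Y)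
    (Λ := 2 * k ^ 2 * (X : ℝ) ^ (k - 2) + k * Y * (7 * (|β| * |c| * (k * Y))))
    (by positivity) (by positivity) (fun n => ?_) F1 ?_ (fun n hn => ?_) fun n hn => ?_
  rotate_left
  · simp only [hF]
    refine if_congr (Nat.dvd_add_left (dvd_mul_right m r)) ?_ rfl
    obtain ⟨d, hd⟩ := sub_dvd_eval_sub ((n + m * r : ℕ) : ℤ) (n : ℤ) h
    rw [← e_add_int (((a * h.eval (n : ℤ) : ℤ) : ℝ) / r) (a * m * d), sub_eq_iff_eq_add'.1 hd]
    congr 1; push_cast; field_simp; ring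
  · obtain ⟨L', h1, h2, h3⟩ := thin hm1 (fun n => e (((a * h.eval (n : ℤ) : ℤ) : ℝ) / r)) (m * r)
    have a1 : r ≤ L' := Nat.le_of_mul_le_mul_left h1 hm1
    have a2 : L' < r + 1 := Nat.lt_of_mul_lt_mul_left (a := m) (by rw [mul_add, mul_one]; exact h2)
    obtain rfl : r = L' := by omega
    have b1 : (r : ℂ) ≠ 0 := by exact_mod_cast (by omega : r ≠ 0)
    have b2 : (m : ℂ) ≠ 0 := by exact_mod_cast (by omega : m ≠ 0)
    rw [hF, h3, U]; push_cast; field_simp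
  · simp only [hG, norm_mul, norm_e, mul_one]; exact nphi hn
  · have e1 : G (n + 1) - G n = ((phi k X (n + 1) : ℂ) - phi k X n) *
        e (β * c * ((n + 1 : ℕ) : ℝ) ^ k) +
        phi k X n * (e (β * c * ((n + 1 : ℕ) : ℝ) ^ k) - e (β * c * (n : ℝ) ^ k)) := by
      simp only [hG]; ring
    rw [e1]
    refine (norm_add_le _ _).trans (add_le_add ?_ ?_)
    · rw [norm_mul, norm_e, mul_one]; exact nlip hk hn
    · rw [norm_mul]
      refine mul_le_mul (nphi (by omega)) ((norm_e_sub _ _).trans ?_) (norm_nonneg _)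
        (by positivity)
      rw [← mul_sub, abs_mul, abs_mul]
      gcongr
      refine (abs_pow_sub_pow_le _ _ _).trans ?_
      have b1 : ((n + 1 : ℕ) : ℝ) ≤ X := by exact_mod_cast hn.le
      have b2 : (n : ℝ) ≤ X := by exact_mod_cast (by omega : n ≤ X)
      rw [Nat.abs_cast, Nat.abs_cast, Nat.cast_succ, add_sub_cancel_left, abs_one, one_mul, hY,
        ← Nat.cast_succ]
      gcongr
      exact max_le b1 b2
  have p2 : ‖∑ n ∈ range X, (if m ∣ n then e ((a / r + β) * ((h.eval (n : ℤ) : ℤ) : ℝ)) else 0) *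
      (phi k X n : ℂ) - ∑ n ∈ range X, F n * G n‖ ≤ X * (k * Y * (7 * (|β| * (H * Y)))) := by
    rw [← sum_sub_distrib]
    refine (norm_sum_le _ _).trans ((sum_le_card_nsmul _ _ (k * Y * (7 * (|β| * (H * Y))))
      fun n hn => ?_).trans (le_of_eq (by simp)))
    have e1 : (if m ∣ n then e ((a / r + β) * ((h.eval (n : ℤ) : ℤ) : ℝ)) else 0) *
        (phi k X n : ℂ) - F n * G n = F n * (phi k X n *
          (e (β * ((h.eval (n : ℤ) : ℤ) : ℝ)) - e (β * c * (n : ℝ) ^ k))) := by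
      simp only [hF, hG]
      split_ifs
      · rw [add_mul, e_add, show (a : ℝ) / r * ((h.eval (n : ℤ) : ℤ) : ℝ) =
          ((a * h.eval (n : ℤ) : ℤ) : ℝ) / r by push_cast; ring]; ring
      · simp
    rw [e1, norm_mul, norm_mul]
    refine (mul_le_of_le_one_left (by positivity) (F1 n)).trans (mul_le_mul
      (nphi (mem_range.1 hn)) ((norm_e_sub _ _).trans ?_) (norm_nonneg _) (by positivity))
    rw [mul_assoc β, ← mul_sub, abs_mul]
    gcongr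
    exact hH X n (mem_range.1 hn)
  have b2 : (m : ℂ) ≠ 0 := by exact_mod_cast (by omega : m ≠ 0)
  have e2 : (be s Q m : ℂ) * U h a r m * ∑ n ∈ range X, G n =
      (((m : ℝ) * be s Q m : ℝ) : ℂ) * (U h a r m / m * ∑ n ∈ range X, G n) := by
    push_cast; field_simp
  rw [e2, ← mul_sub, norm_mul]
  refine (mul_le_mul (coef hs Q hm1) ((norm_sub_le_norm_sub_add_norm_sub _ _ _).trans
    (add_le_add p2 p1)) (norm_nonneg _) (by positivity)).trans ?_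
  have k1 : (k : ℝ) ≤ k ^ 2 := le_self_pow₀ (by exact_mod_cast (by omega : 1 ≤ k)) two_ne_zero
  have q1 : ((m * r : ℕ) : ℝ) ≤ Q * r := by exact_mod_cast Nat.mul_le_mul_right r hm2
  have q2 : (1 : ℝ) ≤ Q * r := le_trans (by exact_mod_cast Nat.mul_pos hm1 hr) q1
  set Z : ℝ := |β| * (X : ℝ) ^ k with hZ
  have Z0 : 0 ≤ Z := by positivity
  have c0 := abs_nonneg c
  have r1 : (X : ℝ) * (k * Y * (7 * (|β| * (H * Y)))) ≤ Q * r * (7 * H * k * (1 + Z) * Y) := by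
    refine le_trans ?_ (le_mul_of_one_le_left (by positivity) q2)
    have : (X : ℝ) * (k * Y * (7 * (|β| * (H * Y)))) = 7 * H * k * Z * Y := by rw [hZ, XY]; ring
    rw [this]; gcongr; linarith
  have r2 : (k : ℝ) * Y + X * (2 * k ^ 2 * (X : ℝ) ^ (k - 2) + k * Y * (7 * (|β| * |c| * (k * Y))))
      ≤ (3 * k ^ 2 + 7 * k ^ 2 * |c|) * (1 + Z) * Y := by
    have : (k : ℝ) * Y + X * (2 * k ^ 2 * (X : ℝ) ^ (k - 2) +
        k * Y * (7 * (|β| * |c| * (k * Y)))) = (k + 2 * k ^ 2 + 7 * k ^ 2 * |c| * Z) * Y := by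
      rw [hZ, XY, mul_add (X : ℝ), mul_left_comm (X : ℝ), XY2]; ring
    rw [this]
    refine mul_le_mul_of_nonneg_right ?_ Y0
    have : 0 ≤ (k : ℝ) ^ 2 * Z := by positivity
    have : 0 ≤ (k : ℝ) ^ 2 * |c| := by positivity
    nlinarith
  refine (mul_le_mul_of_nonneg_left (add_le_add r1 (mul_le_mul
    (mul_le_mul_of_nonneg_left q1 zero_le_two) r2 (by positivity) (by positivity)))
    (Nat.cast_nonneg Q)).trans (le_of_eq (by ring))

end Vale.Agent.P042
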