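import Vale.Agent.P042.ODefs

/-! Part F of the odd polynomial plan: comparison with the Fejer kernel. -/

namespace Vale.Agent.P042

open Finset Polynomial

namespace OF

lemma fej (z : ℂ) (hz : ‖z‖ = 1) (N : ℕ) :
    2 * (∑ u ∈ range N, ((N : ℂ) - u) * z ^ u).re =
      N + Complex.normSq (∑ u ∈ range N, z ^ u) := by
  induction N with
  | zero => simp
  | succ N ih =>
    have h1 : ∑ u ∈ range (N + 1), (((N + 1 : ℕ) : ℂ) - u) * z ^ u =
        ∑ u ∈ range N, ((N : ℂ) - u) * z ^ u + ∑ u ∈ range (N + 1), z ^ u := by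
      rw [← add_zero (∑ u ∈ range N, ((N : ℂ) - u) * z ^ u),
        ← zero_mul (z ^ N), ← sub_self (N : ℂ), ← sum_range_succ, ← sum_add_distrib]
      refine sum_congr rfl fun u _ => ?_
      push_cast; ring
    have h2 : Complex.normSq z = 1 := by rw [Complex.normSq_eq_norm_sq, hz]; norm_num
    rw [h1, Complex.add_re, mul_add, ih, geom_sum_succ, Complex.normSq_add, Complex.normSq_mul, h2]
    simp
    ring

lemma blocks {M : Type} [AddCommMonoid M] {k : ℕ} (hk : 1 ≤ k) (f : ℕ → M) (X : ℕ) :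
    ∑ u ∈ range (X ^ k), f u = ∑ n ∈ range X, ∑ u ∈ Ico (n ^ k) ((n + 1) ^ k), f u := by
  induction X with
  | zero => rw [zero_pow (by omega)]; simp
  | succ X ih =>
    rw [sum_range_succ, ← ih, sum_range_add_sum_Ico _ (Nat.pow_le_pow_left (Nat.le_succ X) k)]

lemma card_blk (k n : ℕ) :
    ((Ico (n ^ k) ((n + 1) ^ k)).card : ℝ) = ((n : ℝ) + 1) ^ k - (n : ℝ) ^ k := by
  rw [Nat.card_Ico, Nat.cast_sub (Nat.pow_le_pow_left (Nat.le_succ n) k)]
  push_cast; ring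

lemma blk_le {k X n : ℕ} (hn : n < X) :
    ((n : ℝ) + 1) ^ k - (n : ℝ) ^ k ≤ k * (X : ℝ) ^ (k - 1) := by
  refine (le_abs_self _).trans ((abs_pow_sub_pow_le ((n : ℝ) + 1) n k).trans ?_)
  have h0 : (0 : ℝ) ≤ n := Nat.cast_nonneg n
  have h1 : (n : ℝ) + 1 ≤ X := by exact_mod_cast hn
  rw [abs_of_nonneg h0, abs_of_nonneg (by linarith : (0 : ℝ) ≤ n + 1), add_sub_cancel_left,
    abs_one, one_mul, max_eq_left (by linarith)]
  gcongr

end OF

theorem fejer {k X : ℕ} (hk : 1 ≤ k) (hX : 1 ≤ X) (t : ℝ) :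
    -((1 + 7 * |t| * (X : ℝ) ^ k) * (k * (X : ℝ) ^ (k - 1))) ≤
      (∑ n ∈ range X, (phi k X n : ℂ) * e (t * (n : ℝ) ^ k)).re := by
  have hN : (0 : ℝ) < (X : ℝ) ^ k := by positivity
  set D : ℕ → ℂ := fun u => ((1 - (u : ℝ) / (X : ℝ) ^ k : ℝ) : ℂ) * e (t * u) with hD
  have h1 : 0 ≤ (∑ u ∈ range (X ^ k), D u).re := by
    have h2 := OF.fej (e t) (norm_e t) (X ^ k)
    have h3 : ∑ u ∈ range (X ^ k), (((X ^ k : ℕ) : ℂ) - u) * e t ^ u =
        (((X : ℝ) ^ k : ℝ) : ℂ) * ∑ u ∈ range (X ^ k), D u := by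
      rw [mul_sum]
      refine sum_congr rfl fun u _ => ?_
      have : ((X : ℂ)) ^ k ≠ 0 := by exact_mod_cast hN.ne'
      rw [hD, ← e_nat_mul, mul_comm (u : ℝ) t]
      push_cast
      field_simp
    rw [h3, Complex.re_ofReal_mul] at h2
    have h4 := Complex.normSq_nonneg (∑ u ∈ range (X ^ k), e t ^ u)
    have h5 : (0 : ℝ) ≤ ((X ^ k : ℕ) : ℝ) := Nat.cast_nonneg _
    exact nonneg_of_mul_nonneg_right (a := (X : ℝ) ^ k) (by linarith) hN
  have h6 : ∑ n ∈ range X, (phi k X n : ℂ) * e (t * (n : ℝ) ^ k) =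
      ∑ n ∈ range X, ∑ _u ∈ Ico (n ^ k) ((n + 1) ^ k), D (n ^ k) := by
    refine sum_congr rfl fun n _ => ?_
    rw [sum_const, nsmul_eq_mul, ← Complex.ofReal_natCast, OF.card_blk, hD, phi]
    push_cast; ring
  have h7 : ‖∑ u ∈ range (X ^ k), D u - ∑ n ∈ range X, (phi k X n : ℂ) * e (t * (n : ℝ) ^ k)‖ ≤
      (1 + 7 * |t| * (X : ℝ) ^ k) * (k * (X : ℝ) ^ (k - 1)) := by
    have h8 : (1 + 7 * |t| * (X : ℝ) ^ k) * (k * (X : ℝ) ^ (k - 1)) =
        ∑ _u ∈ range (X ^ k), (1 / (X : ℝ) ^ k + 7 * |t|) * (k * (X : ℝ) ^ (k - 1)) := by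
      rw [sum_const, card_range, nsmul_eq_mul]
      push_cast
      field_simp
    rw [h8, h6, OF.blocks hk, OF.blocks hk, ← sum_sub_distrib]
    refine (norm_sum_le _ _).trans (sum_le_sum fun n hn => ?_)
    rw [← sum_sub_distrib]
    refine (norm_sum_le _ _).trans (sum_le_sum fun u hu => ?_)
    have a1 : (n : ℝ) ^ k ≤ u := by exact_mod_cast (mem_Ico.1 hu).1
    have a2 : (u : ℝ) ≤ ((n : ℝ) + 1) ^ k := by exact_mod_cast (mem_Ico.1 hu).2.le
    have a3 := OF.blk_le (k := k) (mem_range.1 hn)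
    have a4 : (n : ℝ) ^ k ≤ (X : ℝ) ^ k := by
      have : (n : ℝ) ≤ X := by exact_mod_cast (mem_range.1 hn).le
      gcongr
    have a5 : D u - D (n ^ k) = -((((u : ℝ) - (n : ℝ) ^ k) / (X : ℝ) ^ k : ℝ) : ℂ) * e (t * u) +
        ((1 - (n : ℝ) ^ k / (X : ℝ) ^ k : ℝ) : ℂ) * (e (t * u) - e (t * (n : ℝ) ^ k)) := by
      rw [hD]; push_cast; ring
    have a6 : 0 ≤ 1 - (n : ℝ) ^ k / (X : ℝ) ^ k := sub_nonneg.2 ((div_le_one hN).2 a4)
    have a7 : 1 - (n : ℝ) ^ k / (X : ℝ) ^ k ≤ 1 := sub_le_self _ (by positivity)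
    have a8 := norm_e_sub (t * u) (t * (n : ℝ) ^ k)
    rw [← mul_sub, abs_mul, abs_of_nonneg (sub_nonneg.2 a1)] at a8
    rw [a5]
    refine (norm_add_le _ _).trans ?_
    rw [norm_mul, norm_mul, norm_neg, norm_e, mul_one, Complex.norm_real, Complex.norm_real,
      Real.norm_of_nonneg a6, Real.norm_of_nonneg (div_nonneg (sub_nonneg.2 a1) hN.le)]
    calc _ ≤ ((u : ℝ) - (n : ℝ) ^ k) / (X : ℝ) ^ k + 1 * (7 * (|t| * (u - (n : ℝ) ^ k))) := by
          gcongr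
      _ = (1 / (X : ℝ) ^ k + 7 * |t|) * (u - (n : ℝ) ^ k) := by ring
      _ ≤ _ := by gcongr; linarith
  have h9 := (Complex.re_le_norm _).trans h7
  rw [Complex.sub_re] at h9
  linarith

theorem sum_phi {k X : ℕ} (hk : 1 ≤ k) (hX : 1 ≤ X) :
    (X : ℝ) ^ k / 2 ≤ ∑ n ∈ range X, phi k X n ∧ ∑ n ∈ range X, phi k X n ≤ (X : ℝ) ^ k := by
  have hN : (0 : ℝ) < (X : ℝ) ^ k := by positivity
  have h6 : ∑ n ∈ range X, phi k X n =
      ∑ n ∈ range X, ∑ _u ∈ Ico (n ^ k) ((n + 1) ^ k), (1 - (n : ℝ) ^ k / (X : ℝ) ^ k) := by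
    refine sum_congr rfl fun n _ => ?_
    rw [sum_const, nsmul_eq_mul, OF.card_blk, phi]
  rw [h6]
  constructor
  · have h1 : ∀ N : ℕ, ∑ u ∈ range N, (u : ℝ) ≤ (N : ℝ) ^ 2 / 2 := fun N => by
      induction N with
      | zero => simp
      | succ N ih => rw [sum_range_succ]; push_cast; nlinarith
    have h2 : (X : ℝ) ^ k / 2 ≤ ∑ u ∈ range (X ^ k), (1 - (u : ℝ) / (X : ℝ) ^ k) := by
      rw [sum_sub_distrib, ← sum_div, sum_const, card_range, nsmul_eq_mul, mul_one]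
      have h3 := h1 (X ^ k)
      push_cast at h3 ⊢
      have : (∑ u ∈ range (X ^ k), (u : ℝ)) / (X : ℝ) ^ k ≤ (X : ℝ) ^ k / 2 := by
        rw [div_le_iff₀ hN]; linarith
      linarith
    rw [OF.blocks hk] at h2
    refine h2.trans (sum_le_sum fun n _ => sum_le_sum fun u hu => ?_)
    have a1 : (n : ℝ) ^ k ≤ u := by exact_mod_cast (mem_Ico.1 hu).1
    gcongr
  · have h2 : (X : ℝ) ^ k = ∑ _u ∈ range (X ^ k), (1 : ℝ) := by simp
    refine le_trans (sum_le_sum fun n _ => sum_le_sum fun u _ => ?_) (h2.trans (OF.blocks hk _ X)).ge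
    exact sub_le_self _ (by positivity)

end Vale.Agent.P042
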