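import Vale.Agent.P042.ODefs

/-! Summation by parts and bounds for the archimedean weight. -/

namespace Vale.Agent.P042

open Finset Polynomial

theorem abel (F G : ℕ → ℂ) (X : ℕ) {B G0 Λ : ℝ} (hG0 : 0 ≤ G0) (hΛ : 0 ≤ Λ)
    (hF : ∀ L ≤ X, ‖∑ n ∈ range L, F n‖ ≤ B) (hG : ∀ n < X, ‖G n‖ ≤ G0)
    (hL : ∀ n, n + 1 < X → ‖G (n + 1) - G n‖ ≤ Λ) :
    ‖∑ n ∈ range X, F n * G n‖ ≤ B * (G0 + X * Λ) := by
  have hB : 0 ≤ B := (norm_nonneg _).trans (hF 0 (Nat.zero_le _))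
  rcases Nat.eq_zero_or_pos X with rfl | hX
  · simp only [range_zero, sum_empty, norm_zero]; positivity
  have := sum_range_by_parts G F X
  simp only [smul_eq_mul] at this
  rw [sum_congr rfl fun n _ => mul_comm (F n) (G n), this]
  refine (norm_sub_le _ _).trans ?_
  have h1 : ‖G (X - 1) * ∑ i ∈ range X, F i‖ ≤ G0 * B := by
    rw [norm_mul]
    exact mul_le_mul (hG _ (by omega)) (hF _ le_rfl) (norm_nonneg _) hG0
  have h2 : ‖∑ i ∈ range (X - 1), (G (i + 1) - G i) * ∑ j ∈ range (i + 1), F j‖ ≤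
      X * (Λ * B) := by
    refine (norm_sum_le _ _).trans ((sum_le_card_nsmul _ _ (Λ * B) fun i hi => ?_).trans ?_)
    · have := mem_range.1 hi
      rw [norm_mul]
      exact mul_le_mul (hL _ (by omega)) (hF _ (by omega)) (norm_nonneg _) hΛ
    · rw [card_range, nsmul_eq_mul]
      exact mul_le_mul_of_nonneg_right (by exact_mod_cast Nat.sub_le _ _) (by positivity)
  linarith

theorem period (F G : ℕ → ℂ) (t X : ℕ) (ht : 1 ≤ t) {u : ℂ} {G0 Λ : ℝ} (hG0 : 0 ≤ G0) (hΛ : 0 ≤ Λ)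
    (hp : ∀ n, F (n + t) = F n) (h1 : ∀ n, ‖F n‖ ≤ 1) (hu : ∑ n ∈ range t, F n = t * u)
    (hG : ∀ n < X, ‖G n‖ ≤ G0) (hL : ∀ n, n + 1 < X → ‖G (n + 1) - G n‖ ≤ Λ) :
    ‖∑ n ∈ range X, F n * G n - u * ∑ n ∈ range X, G n‖ ≤ 2 * t * (G0 + X * Λ) := by
  have ht' : (0 : ℝ) < t := by exact_mod_cast ht
  have hu1 : ‖u‖ ≤ 1 := by
    have := (norm_sum_le (range t) F).trans (sum_le_card_nsmul _ _ 1 fun n _ => h1 n)
    rw [hu, norm_mul, Complex.norm_natCast, card_range, nsmul_eq_mul] at this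
    exact le_of_mul_le_mul_left this ht'
  have h2 : ∀ L, ∑ n ∈ range (L + t), (F n - u) = ∑ n ∈ range L, (F n - u) := fun L => by
    induction L with
    | zero => simp [sum_sub_distrib, hu]
    | succ L ih => rw [add_right_comm, sum_range_succ, sum_range_succ, ih, hp]
  have h3 : ∀ L, ‖∑ n ∈ range L, (F n - u)‖ ≤ 2 * t := fun L => by
    induction L using Nat.strong_induction_on with
    | _ L ih =>
    by_cases h : L < t
    · refine (norm_sum_le _ _).trans ((sum_le_card_nsmul _ _ 2 fun n _ => ?_).trans ?_)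
      · linarith [norm_sub_le (F n) u, h1 n]
      · rw [card_range, nsmul_eq_mul, mul_comm]
        exact mul_le_mul_of_nonneg_left (by exact_mod_cast h.le) (by norm_num)
    · obtain ⟨L', rfl⟩ : ∃ L', L = L' + t := ⟨L - t, by omega⟩
      rw [h2]
      exact ih _ (by omega)
  have := abel (fun n => F n - u) G X hG0 hΛ (fun L _ => h3 L) hG hL
  simpa only [sub_mul, sum_sub_distrib, mul_sum] using this

namespace OM

lemma up (k : ℕ) {x y : ℝ} (hx : 0 ≤ x) (hy : 0 ≤ y) :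
    (x + y) ^ k - x ^ k ≤ y * k * (x + y) ^ (k - 1) := by
  have := abs_pow_sub_pow_le (a := x + y) (b := x) (n := k)
  rw [add_sub_cancel_left, abs_of_nonneg hy, abs_of_nonneg hx, abs_of_nonneg (add_nonneg hx hy),
    max_eq_left (by linarith)] at this
  exact (le_abs_self _).trans this

lemma lo (k : ℕ) {x : ℝ} (hx : 0 ≤ x) : k * x ^ (k - 1) ≤ (x + 1) ^ k - x ^ k := by
  have := pow_add_mul_le_add_pow (a := x) (b := 1) hx (by linarith) k
  linarith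

lemma frac {k X n : ℕ} (hn : n < X) :
    0 ≤ 1 - (n : ℝ) ^ k / (X : ℝ) ^ k ∧ 1 - (n : ℝ) ^ k / (X : ℝ) ^ k ≤ 1 := by
  have h1 : (n : ℝ) ≤ X := by exact_mod_cast hn.le
  refine ⟨sub_nonneg.2 (div_le_one_of_le₀ (pow_le_pow_left₀ (by positivity) h1 _)
    (by positivity)), sub_le_self _ (by positivity)⟩

lemma dbd {k X n : ℕ} (hn : n < X) : 0 ≤ ((n : ℝ) + 1) ^ k - (n : ℝ) ^ k ∧
    ((n : ℝ) + 1) ^ k - (n : ℝ) ^ k ≤ k * (X : ℝ) ^ (k - 1) := by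
  have h1 : (n : ℝ) + 1 ≤ X := by exact_mod_cast hn
  refine ⟨le_trans (by positivity) (lo k (Nat.cast_nonneg n)),
    (up k (Nat.cast_nonneg n) zero_le_one).trans ?_⟩
  rw [one_mul]
  exact mul_le_mul_of_nonneg_left (pow_le_pow_left₀ (by positivity) h1 _) (by positivity)

end OM

open OM

theorem phi_bd {k X n : ℕ} (hn : n < X) :
    0 ≤ phi k X n ∧ phi k X n ≤ k * (X : ℝ) ^ (k - 1) :=
  ⟨mul_nonneg (dbd hn).1 (frac hn).1,
    (mul_le_of_le_one_right (dbd hn).1 (frac hn).2).trans (dbd hn).2⟩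

theorem phi_lip {k X n : ℕ} (hk : 2 ≤ k) (hn : n + 1 < X) :
    |phi k X (n + 1) - phi k X n| ≤ 2 * k ^ 2 * (X : ℝ) ^ (k - 2) := by
  obtain ⟨j, rfl⟩ : ∃ j, k = j + 2 := ⟨k - 2, by omega⟩
  have hX : (0 : ℝ) < X := by exact_mod_cast (by omega : 0 < X)
  have h1 : (n : ℝ) + 2 ≤ X := by exact_mod_cast hn
  have hn0 : (0 : ℝ) ≤ n := Nat.cast_nonneg n
  obtain ⟨f1, f2⟩ := frac (k := j + 2) hn
  obtain ⟨d1, d2⟩ := dbd (k := j + 2) (show n < X by omega)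
  have u1 := up (j + 2) hn0 zero_le_one
  have u2 := up (j + 2) (show (0 : ℝ) ≤ n + 1 by positivity) zero_le_one
  have u3 := up (j + 1) hn0 (show (0 : ℝ) ≤ 2 by norm_num)
  have l1 := lo (j + 2) hn0
  have l2 := lo (j + 2) (show (0 : ℝ) ≤ n + 1 by positivity)
  have p1 : ((n : ℝ) + 2) ^ j ≤ (X : ℝ) ^ j := pow_le_pow_left₀ (by positivity) h1 _
  simp only [Nat.add_sub_cancel, show j + 2 - 1 = j + 1 from rfl, one_mul,
    show (n : ℝ) + 1 + 1 = n + 2 by ring] at *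
  push_cast at *
  have e : phi (j + 2) X (n + 1) - phi (j + 2) X n =
      ((((n : ℝ) + 2) ^ (j + 2) - (n + 1) ^ (j + 2)) - ((n + 1) ^ (j + 2) - n ^ (j + 2))) *
        (1 - ((n : ℝ) + 1) ^ (j + 2) / (X : ℝ) ^ (j + 2)) -
      (((n : ℝ) + 1) ^ (j + 2) - n ^ (j + 2)) ^ 2 / (X : ℝ) ^ (j + 2) := by
    simp only [phi]; push_cast; ring
  have a0 : 0 ≤ (((n : ℝ) + 2) ^ (j + 2) - (n + 1) ^ (j + 2)) -
      ((n + 1) ^ (j + 2) - n ^ (j + 2)) := by linarith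
  have hj : (0 : ℝ) ≤ j := Nat.cast_nonneg j
  have hXj : (0 : ℝ) ≤ (X : ℝ) ^ j := by positivity
  have a1 : (((n : ℝ) + 2) ^ (j + 2) - (n + 1) ^ (j + 2)) - ((n + 1) ^ (j + 2) - n ^ (j + 2)) ≤
      2 * ((j : ℝ) + 2) ^ 2 * (X : ℝ) ^ j := by
    have b1 := mul_le_mul_of_nonneg_left u3 (show (0 : ℝ) ≤ j + 2 by positivity)
    have b2 := mul_le_mul_of_nonneg_left p1 (show (0 : ℝ) ≤ (j + 2) * (2 * (j + 1)) by positivity)
    nlinarith [mul_nonneg (show (0 : ℝ) ≤ j + 2 by positivity) hXj]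
  have a2 : (((n : ℝ) + 1) ^ (j + 2) - n ^ (j + 2)) ^ 2 / (X : ℝ) ^ (j + 2) ≤
      ((j : ℝ) + 2) ^ 2 * (X : ℝ) ^ j := by
    rw [div_le_iff₀ (by positivity)]
    exact (pow_le_pow_left₀ d1 d2 2).trans_eq (by ring)
  have a3 := mul_nonneg a0 f1
  have a4 := mul_le_of_le_one_right a0 f2
  have a5 : 0 ≤ (((n : ℝ) + 1) ^ (j + 2) - n ^ (j + 2)) ^ 2 / (X : ℝ) ^ (j + 2) := by positivity
  have a6 : 0 ≤ ((j : ℝ) + 2) ^ 2 * (X : ℝ) ^ j := by positivity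
  rw [e, abs_le]
  constructor <;> linarith

end Vale.Agent.P042
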