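import Vale.Agent.P042.OK

/-! Part Z: truncation of the singular factor. -/

namespace Vale.Agent.P042

open Finset Polynomial ArithmeticFunction
open scoped ArithmeticFunction.Moebius

namespace Z

lemma swap (Q : ℕ) (f : ℕ → ℕ → ℂ) : ∑ m ∈ Icc 1 Q, ∑ l ∈ Icc 1 (Q / m), f m l =
    ∑ q ∈ Icc 1 Q, ∑ x ∈ q.divisorsAntidiagonal, f x.1 x.2 := by
  rw [sum_sigma', sum_sigma']
  refine sum_nbij' (fun p => ⟨p.1 * p.2, (p.1, p.2)⟩) (fun p => ⟨p.2.1, p.2.2⟩) ?_ ?_ ?_ ?_ ?_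
  · rintro ⟨m, l⟩ hp
    simp only [mem_sigma, mem_Icc, Nat.mem_divisorsAntidiagonal] at hp ⊢
    obtain ⟨⟨a, -⟩, b, c⟩ := hp
    have := (Nat.le_div_iff_mul_le a).1 c
    have k := Nat.mul_pos a b
    exact ⟨⟨k, by rwa [mul_comm]⟩, trivial, k.ne'⟩
  · rintro ⟨q, m, l⟩ hp
    simp only [mem_sigma, mem_Icc, Nat.mem_divisorsAntidiagonal] at hp ⊢
    obtain ⟨⟨a, b⟩, rfl, -⟩ := hp
    have p1 : 0 < m := Nat.pos_of_mul_pos_right a
    have p2 : 0 < l := Nat.pos_of_mul_pos_left a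
    exact ⟨⟨p1, (Nat.le_mul_of_pos_right m p2).trans b⟩, p2,
      (Nat.le_div_iff_mul_le p1).2 (by rwa [mul_comm])⟩
  · rintro ⟨m, l⟩ _
    rfl
  · rintro ⟨q, m, l⟩ hp
    simp only [mem_sigma, mem_Icc, Nat.mem_divisorsAntidiagonal] at hp
    obtain ⟨-, rfl, -⟩ := hp
    rfl
  · rintro ⟨m, l⟩ _
    rfl

lemma V_zero (h : ℤ[X]) (a : ℤ) {r q : ℕ} (hr : 1 ≤ r) (hq : 0 < q) (hd : ¬ q ∣ r) :
    V h a r q = 0 := by
  have key := (sum_eq_iff_sum_mul_moebius_eq (f := fun d => if d ∣ r then V h a r d else 0)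
    (g := U h a r)).1 (fun m hm => by
      rw [K.U_gcd h a hr, ← K.sum_V h a r _ (Nat.gcd_pos_of_pos_left r hm), ← sum_filter]
      refine sum_congr (Finset.ext fun d => ?_) fun _ _ => rfl
      simp only [mem_filter, Nat.mem_divisors, Nat.dvd_gcd_iff]
      exact ⟨fun k => ⟨⟨k.1.1, k.2⟩, (Nat.gcd_pos_of_pos_left r hm).ne'⟩,
        fun k => ⟨⟨k.1.1, hm.ne'⟩, k.1.2⟩⟩) q hq
  rw [if_neg hd] at key
  rw [K.V_eq, key]

lemma norm_V (h : ℤ[X]) (a : ℤ) {r q : ℕ} (hq : q ∈ r.divisors) :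
    ‖V h a r q‖ ≤ r.divisors.card := by
  rw [V, Nat.sum_divisorsAntidiagonal fun x y => ((μ y : ℤ) : ℂ) * U h a r x]
  refine (norm_sum_le _ _).trans ((sum_le_card_nsmul _ _ 1 fun l _ => ?_).trans ?_)
  · rw [norm_mul, Complex.norm_intCast]
    exact mul_le_one₀ (by exact_mod_cast abs_moebius_le_one) (norm_nonneg _) (norm_U_le _ _ _ _)
  · rw [nsmul_one, Nat.cast_le]
    exact card_le_card
      (Nat.divisors_subset_of_dvd (Nat.mem_divisors.1 hq).2 (Nat.mem_divisors.1 hq).1)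

lemma bd {s : ℝ} (hs : 0 ≤ s) (h : ℤ[X]) (a : ℤ) {r Q : ℕ} (hQ : 1 ≤ Q) (S : Finset ℕ)
    (h1 : S ⊆ r.divisors) (h2 : ∀ q ∈ S, Q ≤ q) :
    ‖∑ q ∈ S, (((q : ℝ) ^ (-s) : ℝ) : ℂ) * V h a r q‖ ≤
      (r.divisors.card : ℝ) ^ 2 * (Q : ℝ) ^ (-s) := by
  have hQ' : (0 : ℝ) < Q := by exact_mod_cast hQ
  refine (norm_sum_le _ _).trans ((sum_le_card_nsmul _ _ ((Q : ℝ) ^ (-s) * r.divisors.card)
    fun q hq => ?_).trans ?_)
  · rw [norm_mul, Complex.norm_real, Real.norm_of_nonneg (by positivity)]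
    exact mul_le_mul (Real.rpow_le_rpow_of_nonpos hQ' (by exact_mod_cast h2 q hq) (by linarith))
      (norm_V h a (h1 hq)) (norm_nonneg _) (by positivity)
  · have : (S.card : ℝ) ≤ r.divisors.card := by exact_mod_cast card_le_card h1
    rw [nsmul_eq_mul]
    calc _ ≤ (r.divisors.card : ℝ) * ((Q : ℝ) ^ (-s) * r.divisors.card) := by gcongr
      _ = _ := by ring

end Z

theorem trunc {s : ℝ} (hs : 0 ≤ s) (h : ℤ[X]) (a : ℤ) {r Q : ℕ} (hr : 1 ≤ r) (hQ : 1 ≤ Q) :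
    ‖∑ m ∈ Icc 1 Q, (be s Q m : ℂ) * U h a r m - kap s h a r‖ ≤
      (r.divisors.card : ℝ) ^ 2 * (Q : ℝ) ^ (-s) ∧ ‖kap s h a r‖ ≤ (r : ℝ) ^ 2 := by
  constructor
  · have e1 : ∑ m ∈ Icc 1 Q, (be s Q m : ℂ) * U h a r m =
        ∑ q ∈ Icc 1 Q, (((q : ℝ) ^ (-s) : ℝ) : ℂ) * V h a r q := by
      simp only [be, Complex.ofReal_sum, sum_mul]
      rw [Z.swap Q fun m l => ((((m * l : ℕ) : ℝ) ^ (-s) * ((μ l : ℤ) : ℝ) : ℝ) : ℂ) * U h a r m]
      refine sum_congr rfl fun q _ => ?_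
      rw [V, mul_sum]
      refine sum_congr rfl fun x hx => ?_
      rw [(Nat.mem_divisorsAntidiagonal.1 hx).1, Complex.ofReal_mul, Complex.ofReal_intCast,
        mul_assoc]
    have e2 : ∑ q ∈ Icc 1 Q, (((q : ℝ) ^ (-s) : ℝ) : ℂ) * V h a r q =
        ∑ q ∈ r.divisors.filter (· ≤ Q), (((q : ℝ) ^ (-s) : ℝ) : ℂ) * V h a r q := by
      refine (sum_subset (fun q hq => ?_) fun q hq hn => ?_).symm
      · obtain ⟨a1, a2⟩ := mem_filter.1 hq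
        exact mem_Icc.2 ⟨Nat.pos_of_mem_divisors a1, a2⟩
      · rw [Z.V_zero h a hr (mem_Icc.1 hq).1 fun k =>
          hn (mem_filter.2 ⟨Nat.mem_divisors.2 ⟨k, by omega⟩, (mem_Icc.1 hq).2⟩), mul_zero]
    rw [e1, e2, kap, ← sum_filter_add_sum_filter_not r.divisors (· ≤ Q), sub_add_cancel_left,
      norm_neg]
    exact Z.bd hs h a hQ _ (filter_subset _ _) fun q hq => (not_le.1 (mem_filter.1 hq).2).le
  · refine (Z.bd hs h a le_rfl _ Subset.rfl fun q hq => Nat.pos_of_mem_divisors hq).trans ?_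
    rw [Nat.cast_one, Real.one_rpow, mul_one]
    have : (r.divisors.card : ℝ) ≤ r := by exact_mod_cast Nat.card_divisors_le_self r
    gcongr

end Vale.Agent.P042
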