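import Vale.Agent.P042.OW
import Vale.Agent.P042.OZ
import Vale.Agent.P042.OF
import Vale.Agent.P042.OM
import Vale.Agent.P042.OA

namespace Vale.Agent.P042

open Finset Polynomial

namespace C

lemma succ_pow_le (v k : ℕ) : (v + 1) ^ k ≤ k.factorial * 2 ^ k * 2 ^ v := by
  calc (v + 1) ^ k ≤ (v + 1).ascFactorial k := Nat.pow_succ_le_ascFactorial _ _
    _ = k.factorial * (v + k).choose k := Nat.ascFactorial_eq_factorial_mul_choose _ _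
    _ ≤ k.factorial * 2 ^ (v + k) := Nat.mul_le_mul_left _ (Nat.choose_le_two_pow _ _)
    _ = _ := by ring

lemma divisors_pow_le (k : ℕ) : ∃ C : ℕ, ∀ n : ℕ, n ≠ 0 → n.divisors.card ^ k ≤ C * n := by
  obtain ⟨c, hc⟩ : ∃ c, c = k.factorial * 2 ^ k := ⟨_, rfl⟩
  have hc1 : 1 ≤ c := by rw [hc]; exact Nat.mul_pos k.factorial_pos (by positivity)
  refine ⟨c ^ 2 ^ k, fun n hn => ?_⟩
  rw [Nat.card_divisors hn, ← prod_pow]
  have h1 : ∏ p ∈ n.primeFactors, (n.factorization p + 1) ^ k ≤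
      ∏ p ∈ n.primeFactors, ((if p < 2 ^ k then c else 1) * p ^ n.factorization p) := by
    refine prod_le_prod' fun p hp => ?_
    have h2 := (Nat.prime_of_mem_primeFactors hp).two_le
    split_ifs with h
    · rw [hc]
      exact (succ_pow_le _ _).trans (Nat.mul_le_mul_left _ (Nat.pow_le_pow_left h2 _))
    · rw [one_mul]
      calc (n.factorization p + 1) ^ k ≤ (2 ^ n.factorization p) ^ k :=
            Nat.pow_le_pow_left Nat.lt_two_pow_self k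
        _ = (2 ^ k) ^ n.factorization p := by rw [← pow_mul, ← pow_mul, mul_comm]
        _ ≤ _ := Nat.pow_le_pow_left (not_lt.1 h) _
  refine h1.trans ?_
  rw [prod_mul_distrib]
  have h2 : ∏ p ∈ n.primeFactors, p ^ n.factorization p = n :=
    Nat.prod_factorization_pow_eq_self hn
  rw [h2, prod_ite, prod_const_one, mul_one, prod_const]
  refine Nat.mul_le_mul_right _ (Nat.pow_le_pow_right hc1 ?_)
  calc _ ≤ (range (2 ^ k)).card := card_le_card fun p hp => mem_range.2 (mem_filter.1 hp).2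
    _ = _ := card_range _

lemma tau_sq {s c : ℝ} (hs : 0 < s) (hc : 1 ≤ c) (D : ℕ) : ∃ K : ℝ, 1 ≤ K ∧ ∀ (y : ℝ) (r : ℕ),
    1 ≤ y → 1 ≤ r → (r : ℝ) ≤ c * y ^ D → (r.divisors.card : ℝ) ^ 2 ≤ K * y ^ (s / 2) := by
  obtain ⟨j, hj⟩ := exists_nat_ge (4 * D / s)
  obtain ⟨Cd, hCd⟩ := divisors_pow_le (j + 1)
  refine ⟨max 1 ((Cd * c) ^ 2), le_max_left _ _, fun y r hy hr hle => ?_⟩
  set K := max 1 (((Cd : ℝ) * c) ^ 2) with hK
  have hK1 : 1 ≤ K := le_max_left _ _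
  have h1 : (r.divisors.card : ℝ) ^ (j + 1) ≤ Cd * r := by exact_mod_cast hCd r (by omega)
  have h2 : (r.divisors.card : ℝ) ^ (j + 1) ≤ Cd * c * y ^ D := by
    rw [mul_assoc]; exact h1.trans (mul_le_mul_of_nonneg_left hle (Nat.cast_nonneg _))
  refine le_of_pow_le_pow_left₀ (Nat.succ_ne_zero j) (by positivity) ?_
  have h3 : y ^ (2 * D) ≤ (y ^ (s / 2)) ^ (j + 1) := by
    rw [← Real.rpow_natCast, ← Real.rpow_natCast, ← Real.rpow_mul (by linarith)]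
    refine Real.rpow_le_rpow_of_exponent_le hy ?_
    rw [div_le_iff₀ hs] at hj
    push_cast
    nlinarith
  calc ((r.divisors.card : ℝ) ^ 2) ^ (j + 1) = ((r.divisors.card : ℝ) ^ (j + 1)) ^ 2 := by ring
    _ ≤ (Cd * c * y ^ D) ^ 2 := by gcongr
    _ = (Cd * c) ^ 2 * y ^ (2 * D) := by ring
    _ ≤ K ^ (j + 1) * (y ^ (s / 2)) ^ (j + 1) := by
        refine mul_le_mul ((le_max_right _ _).trans (le_self_pow₀ hK1 (Nat.succ_ne_zero j))) h3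
          (by positivity) (by positivity)
    _ = _ := (mul_pow _ _ _).symm

lemma kap_one (s : ℝ) (h : ℤ[X]) : kap s h 0 1 = 1 := by
  simp [kap, V, U]

lemma norm_I_le {k X : ℕ} (hk : 1 ≤ k) (hX : 1 ≤ X) (t : ℝ) :
    ‖∑ n ∈ range X, (phi k X n : ℂ) * e (t * (n : ℝ) ^ k)‖ ≤ (X : ℝ) ^ k := by
  refine (norm_sum_le _ _).trans (le_trans (sum_le_sum fun n hn => ?_) (sum_phi hk hX).2)
  rw [norm_mul, norm_e, mul_one, Complex.norm_real, Real.norm_eq_abs,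
    abs_of_nonneg (phi_bd (mem_range.mp hn)).1]

lemma dich {h : ℤ[X]} (hc : 0 < h.leadingCoeff) {k CW : ℕ} (hkk : h.natDegree = k + 1)
    (hW : ∀ P : ℝ[X], P.natDegree ≤ h.natDegree → ∀ (N L : ℕ) (δ : ℝ),
      0 < δ → δ ≤ 1 / 2 → L ≤ N → δ⁻¹ ^ CW ≤ N → δ * N ≤ ‖∑ n ∈ range L, e (P.eval (n : ℝ))‖ →
      ∃ q : ℕ, 1 ≤ q ∧ (q : ℝ) ≤ δ⁻¹ ^ CW ∧ ∃ z : ℤ,
        |q * P.coeff h.natDegree - z| ≤ δ⁻¹ ^ CW / (N : ℝ) ^ h.natDegree)
    {Y N m L : ℕ} {θ : ℝ} (hY : 2 ≤ Y) (hN : (Y : ℝ) ^ (4 * CW) ≤ N) (hm : m ∈ Icc 1 Y)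
    (hL : L ≤ N) (hlt : ((Y : ℝ) ^ 4)⁻¹ * N <
      ‖∑ n ∈ range L, e (θ * ((h.eval ((m * n : ℕ) : ℤ) : ℤ) : ℝ))‖) :
    ∃ (r : ℕ) (z : ℤ) (β : ℝ), 1 ≤ r ∧ (r : ℝ) ≤ h.leadingCoeff * (Y : ℝ) ^ (4 * CW + (k + 1)) ∧
      |β| * (N : ℝ) ^ (k + 1) ≤ (Y : ℝ) ^ (4 * CW + (k + 1)) ∧ (z : ℝ) / r + β = θ := by
  set c : ℝ := (h.leadingCoeff : ℝ) with hcdef
  have hc1 : 1 ≤ c := by rw [hcdef]; exact_mod_cast hc
  set y : ℝ := (Y : ℝ) with hy
  have hy2 : 2 ≤ y := by rw [hy]; exact_mod_cast hY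
  have hy1 : 1 ≤ y := by linarith
  have hy0 : 0 < y := by linarith
  set x : ℝ := (N : ℝ) with hx
  have hx0 : 0 < x := lt_of_lt_of_le (by positivity) hN
  obtain ⟨hm1, hm2⟩ := mem_Icc.mp hm
  set P : ℝ[X] := Polynomial.C θ * (h.map (Int.castRingHom ℝ)).comp (Polynomial.C (m : ℝ) * X)
    with hP
  have hev : ∀ n : ℕ, P.eval (n : ℝ) = θ * ((h.eval ((m * n : ℕ) : ℤ) : ℤ) : ℝ) := by
    intro n
    rw [hP, eval_mul, eval_C, eval_comp, eval_mul, eval_C, eval_X, ← Nat.cast_mul,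
      ← Int.cast_natCast, eval_intCast_map]
    simp
  have hdeg : P.natDegree ≤ h.natDegree := by
    refine (natDegree_C_mul_le _ _).trans (natDegree_comp_le.trans ?_)
    have := natDegree_map_le (f := Int.castRingHom ℝ) (p := h)
    have h2 : (Polynomial.C (m : ℝ) * X).natDegree ≤ 1 :=
      (natDegree_C_mul_le _ _).trans natDegree_X_le
    calc _ ≤ h.natDegree * 1 := Nat.mul_le_mul this h2
      _ = _ := mul_one _
  have hco : P.coeff h.natDegree = θ * (c * (m : ℝ) ^ (k + 1)) := by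
    rw [hP, coeff_C_mul, comp_C_mul_X_coeff, coeff_map, coeff_natDegree, hkk]
    rfl
  have hδ : ((y ^ 4)⁻¹)⁻¹ ^ CW = y ^ (4 * CW) := by rw [inv_inv, pow_mul]
  obtain ⟨q, hq1, hq2, z, hz⟩ := hW P hdeg N L (y ^ 4)⁻¹ (by positivity) (by
    rw [one_div]
    exact inv_anti₀ two_pos (hy2.trans (le_self_pow₀ hy1 (by norm_num)))) hL (by
    rw [hδ]
    exact hN) (by simp only [hev]; exact hlt.le)
  rw [hδ] at hq2 hz
  rw [hco, hkk] at hz
  obtain ⟨c', hc'⟩ := Int.eq_ofNat_of_zero_le hc.le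
  have hcc : c = c' := by rw [hcdef, hc']; simp
  have hc'1 : 1 ≤ c' := by omega
  set r := q * (c' * m ^ (k + 1)) with hr
  have hr1 : 1 ≤ r := Nat.mul_pos hq1 (Nat.mul_pos hc'1 (pow_pos hm1 _))
  have hrr : (r : ℝ) = q * (c * (m : ℝ) ^ (k + 1)) := by rw [hr, hcc]; push_cast; ring
  have hmy : (m : ℝ) ≤ y := by rw [hy]; exact_mod_cast hm2
  have hr2 : (r : ℝ) ≤ c * y ^ (4 * CW + (k + 1)) := by
    rw [hrr]
    calc (q : ℝ) * (c * (m : ℝ) ^ (k + 1)) ≤ y ^ (4 * CW) * (c * y ^ (k + 1)) := by gcongr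
      _ = _ := by ring
  have hr0 : (1 : ℝ) ≤ r := by exact_mod_cast hr1
  set β := θ - z / r with hβ
  have hβ1 : |β| * x ^ (k + 1) ≤ y ^ (4 * CW + (k + 1)) := by
    have e1 : β = ((q : ℝ) * (θ * (c * (m : ℝ) ^ (k + 1))) - z) / r := by
      rw [hβ, eq_div_iff (by linarith), sub_mul, div_mul_cancel₀ _ (by linarith), hrr]; ring
    have e2 : |β| ≤ y ^ (4 * CW) / x ^ (k + 1) := by
      rw [e1, abs_div, abs_of_pos (by linarith : (0 : ℝ) < r)]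
      exact (div_le_self (abs_nonneg _) hr0).trans hz
    rw [le_div_iff₀ (by positivity)] at e2
    exact e2.trans (pow_le_pow_right₀ hy1 (by omega))
  exact ⟨r, z, β, hr1, hr2, hβ1, by rw [hβ]; ring⟩

lemma num {c y x ε β κ j : ℝ} {D k : ℕ} (hc1 : 1 ≤ c) (hy1 : 1 ≤ y) (hx0 : 0 < x)
    (hb : y ^ (3 * D + 3) * x ^ k ≤ ε * x ^ (k + 1)) (hβ1 : |β| * x ^ (k + 1) ≤ y ^ D)
    (p1 : 0 ≤ κ) (p3 : κ ≤ (c * y ^ D) ^ 2)
    (h2 : -((1 + 7 * |β * c| * x ^ (k + 1)) * (((k + 1 : ℕ) : ℝ) * x ^ k)) ≤ j) :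
    -(8 * c ^ 3 * (k + 1) * (ε * x ^ (k + 1))) ≤ κ * j := by
  have hD1 : 1 ≤ y ^ D := one_le_pow₀ hy1
  have h4 : (1 + 7 * |β * c| * x ^ (k + 1)) ≤ 8 * c * y ^ D := by
    rw [abs_mul, abs_of_pos (by linarith : 0 < c)]
    nlinarith [mul_le_mul_of_nonneg_left hβ1 (by linarith : 0 ≤ c)]
  have h5 : -(8 * c * y ^ D * ((k + 1) * x ^ k)) ≤ j := by
    refine le_trans (neg_le_neg ?_) h2
    push_cast
    gcongr
  have h7 : κ * (8 * c * y ^ D * ((k + 1) * x ^ k)) ≤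
      8 * c ^ 3 * (k + 1) * (ε * x ^ (k + 1)) := by
    calc _ ≤ (c * y ^ D) ^ 2 * (8 * c * y ^ D * ((k + 1) * x ^ k)) * y ^ 3 := by
          refine le_trans (by gcongr) (le_mul_of_one_le_right (by positivity)
            (one_le_pow₀ hy1))
      _ = 8 * c ^ 3 * (k + 1) * (y ^ (3 * D + 3) * x ^ k) := by ring
      _ ≤ _ := by gcongr
  nlinarith [mul_le_mul_of_nonneg_left h5 p1]

lemma num2 {y x ε : ℝ} {k : ℕ} (hy2 : 2 ≤ y) (hx0 : 0 < x) (hε1 : y⁻¹ ≤ ε) :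
    y ^ 2 * ((y ^ 4)⁻¹ * x) * (3 * ((k + 1 : ℕ) : ℝ) ^ 2 * x ^ k) ≤
      3 * (k + 1) ^ 2 * (ε * x ^ (k + 1)) := by
  have hy0 : 0 < y := by linarith
  have h3 : y ^ 2 * (y ^ 4)⁻¹ ≤ ε := by
    refine le_trans ?_ hε1
    rw [← div_eq_mul_inv, inv_eq_one_div, div_le_div_iff₀ (by positivity) hy0]
    nlinarith [pow_pos hy0 3]
  calc _ = 3 * (k + 1) ^ 2 * ((y ^ 2 * (y ^ 4)⁻¹) * x ^ (k + 1)) := by push_cast; ring
    _ ≤ _ := by gcongr

lemma num3 {c y x ε β r CM : ℝ} {D k : ℕ} (hc1 : 1 ≤ c) (hy1 : 1 ≤ y) (hx0 : 0 < x)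
    (hCM : 0 ≤ CM) (hb : y ^ (3 * D + 3) * x ^ k ≤ ε * x ^ (k + 1))
    (hβ : |β| * x ^ (k + 1) ≤ y ^ D) (hr2 : r ≤ c * y ^ D) :
    CM * y ^ 3 * r * (1 + |β| * x ^ (k + 1)) * x ^ k ≤ 2 * c * CM * (ε * x ^ (k + 1)) := by
  have hD1 : 1 ≤ y ^ D := one_le_pow₀ hy1
  calc CM * y ^ 3 * r * (1 + |β| * x ^ (k + 1)) * x ^ k
      ≤ CM * y ^ 3 * (c * y ^ D) * (2 * y ^ D * y ^ D) * x ^ k := by
        gcongr; nlinarith
    _ = 2 * c * CM * (y ^ (3 * D + 3) * x ^ k) := by ring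
    _ ≤ _ := by gcongr

end C

theorem core {h : ℤ[X]} (hk : 2 ≤ h.natDegree) (hc : 0 < h.leadingCoeff) {s : ℝ} (hs : 0 < s)
    (hp : ∀ (a : ℤ) (r : ℕ), 1 ≤ r → 0 ≤ (kap s h a r).re ∧ (kap s h a r).im = 0) :
    ∃ (C σ : ℝ) (E : ℕ), 0 < C ∧ 0 < σ ∧ σ ≤ 1 ∧ 3 ≤ E ∧ ∀ Y : ℕ, 2 ≤ Y →
      (∀ θ : ℝ, -(C * (Y : ℝ) ^ (-σ) * ((Y : ℝ) ^ E) ^ h.natDegree) ≤ (T s h Y (Y ^ E) θ).re) ∧
      (1 / 2 - C * (Y : ℝ) ^ (-σ)) * ((Y : ℝ) ^ E) ^ h.natDegree ≤ (T s h Y (Y ^ E) 0).re := by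
  obtain ⟨CW, hW⟩ := weyl h.natDegree (by omega)
  obtain ⟨CM, hCM, hM⟩ := major hk
  obtain ⟨k, hkk⟩ : ∃ k, h.natDegree = k + 1 := ⟨h.natDegree - 1, by omega⟩
  set c : ℝ := (h.leadingCoeff : ℝ) with hcdef
  have hc1 : 1 ≤ c := by rw [hcdef]; exact_mod_cast hc
  set D := 4 * CW + (k + 1) with hD
  obtain ⟨K, hK1, hK⟩ := C.tau_sq hs hc1 D
  set σ := min (s / 2) 1 with hσ
  have hσ0 : 0 < σ := lt_min (by linarith) one_pos
  set C1 := 2 * c * CM + K with hC1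
  refine ⟨C1 + 8 * c ^ 3 * (k + 1) + 3 * (k + 1) ^ 2, σ, 3 * D + 4, by positivity, hσ0,
    min_le_right _ _, by omega, fun Y hY => ?_⟩
  set y : ℝ := (Y : ℝ) with hy
  have hy2 : 2 ≤ y := by rw [hy]; exact_mod_cast hY
  have hy1 : 1 ≤ y := by linarith
  have hy0 : 0 < y := by linarith
  set N := Y ^ (3 * D + 4) with hX
  have hX1 : 1 ≤ N := Nat.one_le_pow _ _ (by omega)
  have hXr : (N : ℝ) = y ^ (3 * D + 4) := by rw [hX]; push_cast; rfl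
  rw [← hXr, hkk]
  set x : ℝ := (N : ℝ) with hx
  have hx0 : 0 < x := by rw [hXr]; positivity
  set ε := y ^ (-σ) with hε
  have hε0 : 0 < ε := Real.rpow_pos_of_pos hy0 _
  have hε1 : y⁻¹ ≤ ε := by
    rw [← Real.rpow_neg_one]
    exact Real.rpow_le_rpow_of_exponent_le hy1 (neg_le_neg (min_le_right _ _))
  have hε2 : y ^ (s / 2) * y ^ (-s) ≤ ε := by
    rw [← Real.rpow_add hy0]
    exact Real.rpow_le_rpow_of_exponent_le hy1 (by have := min_le_left (s / 2) 1; linarith)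
  have hb : y ^ (3 * D + 3) * x ^ k ≤ ε * x ^ (k + 1) := by
    have : y ^ (3 * D + 3) = y⁻¹ * x := by rw [hXr]; field_simp; ring
    rw [this, pow_succ]
    have : y⁻¹ * x * x ^ k = y⁻¹ * (x ^ k * x) := by ring
    rw [this]
    gcongr
  have arc : ∀ (a : ℤ) (r : ℕ) (β : ℝ), 1 ≤ r → (r : ℝ) ≤ c * y ^ D → |β| * x ^ (k + 1) ≤ y ^ D →
      ‖T s h Y N (a / r + β) - kap s h a r * ∑ n ∈ range N, (phi (k + 1) N n : ℂ) *
        e (β * c * (n : ℝ) ^ (k + 1))‖ ≤ C1 * ε * x ^ (k + 1) := by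
    intro a r β hr hr2 hβ
    have h1 := hM s Y N r a β hs.le hX1 hr
    rw [hkk, Nat.add_sub_cancel] at h1
    have h2 := (trunc hs.le h a hr (show 1 ≤ Y by omega)).1
    have h3 := C.norm_I_le (k := k + 1) (by omega) hX1 (β * c)
    have h4 := hK y r hy1 hr hr2
    set S := ∑ m ∈ Icc 1 Y, (be s Y m : ℂ) * U h a r m
    set J := ∑ n ∈ range N, (phi (k + 1) N n : ℂ) * e (β * c * (n : ℝ) ^ (k + 1))
    have h5 : T s h Y N (a / r + β) - kap s h a r * J =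
        (T s h Y N (a / r + β) - S * J) + (S - kap s h a r) * J := by ring
    rw [h5]
    refine (norm_add_le _ _).trans ?_
    have h6 := C.num3 hc1 hy1 hx0 hCM hb hβ hr2
    have h7 : ‖(S - kap s h a r) * J‖ ≤ K * (ε * x ^ (k + 1)) := by
      rw [norm_mul]
      calc ‖S - kap s h a r‖ * ‖J‖ ≤ (K * y ^ (s / 2) * y ^ (-s)) * x ^ (k + 1) := by
            refine mul_le_mul (h2.trans ?_) h3 (norm_nonneg _) (by positivity)
            gcongr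
        _ = K * ((y ^ (s / 2) * y ^ (-s)) * x ^ (k + 1)) := by ring
        _ ≤ _ := by gcongr
    have := h1.trans h6
    rw [hC1]
    linarith
  have hpos : 0 ≤ ε * x ^ (k + 1) := by positivity
  have hC10 : 0 ≤ C1 := by positivity
  have hk0 : (0 : ℝ) ≤ k := Nat.cast_nonneg k
  constructor
  · intro θ
    by_cases hmin : ∀ m ∈ Icc 1 Y, ∀ L ≤ N,
        ‖∑ n ∈ range L, e (θ * ((h.eval ((m * n : ℕ) : ℤ) : ℤ) : ℝ))‖ ≤ (y ^ 4)⁻¹ * x
    · have h1 := minor hs.le hk Y N θ hmin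
      rw [hkk, Nat.add_sub_cancel] at h1
      have h2 := C.num2 (k := k) hy2 hx0 hε1
      have h4 := neg_le_of_abs_le ((Complex.abs_re_le_norm _).trans (h1.trans h2))
      have h5 : 0 ≤ (C1 + 8 * c ^ 3 * (k + 1)) * (ε * x ^ (k + 1)) := by positivity
      linarith
    · push Not at hmin
      obtain ⟨m, hm, L, hL, hlt⟩ := hmin
      obtain ⟨r, z, β, hr1, hr2, hβ1, hθ⟩ := C.dich hc hkk hW hY (by
        rw [← hx, hXr]
        exact pow_le_pow_right₀ hy1 (by omega)) hm hL hlt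
      have h1 := arc z r β hr1 hr2 hβ1
      rw [hθ] at h1
      have h2 := fejer (k := k + 1) (by omega) hX1 (β * c)
      rw [Nat.add_sub_cancel, ← hx] at h2
      set J := ∑ n ∈ range N, (phi (k + 1) N n : ℂ) * e (β * c * (n : ℝ) ^ (k + 1))
      obtain ⟨p1, p2⟩ := hp z r hr1
      have p3 : (kap s h z r).re ≤ (c * y ^ D) ^ 2 :=
        (Complex.re_le_norm _).trans ((trunc hs.le h z hr1 (show 1 ≤ Y by omega)).2.trans
          (by gcongr))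
      have h3 := neg_le_of_abs_le ((Complex.abs_re_le_norm _).trans h1)
      rw [Complex.sub_re, Complex.mul_re, p2, zero_mul, sub_zero] at h3
      have h6 := C.num hc1 hy1 hx0 hb hβ1 p1 p3 h2
      have h8 : 0 ≤ 3 * ((k : ℝ) + 1) ^ 2 * (ε * x ^ (k + 1)) := by positivity
      linarith
  · have h1 := arc 0 1 0 le_rfl (by
      simpa using one_le_mul_of_one_le_of_one_le hc1 (one_le_pow₀ hy1)) (by simp; positivity)
    rw [C.kap_one, one_mul] at h1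
    simp only [Int.cast_zero, zero_div, add_zero, zero_mul, e_zero, mul_one] at h1
    have h3 := neg_le_of_abs_le ((Complex.abs_re_le_norm _).trans h1)
    rw [Complex.sub_re, ← Complex.ofReal_sum, Complex.ofReal_re] at h3
    have h4 := (sum_phi (k := k + 1) (by omega) hX1).1
    have h5 : 0 ≤ (8 * c ^ 3 * (k + 1) + 3 * (k + 1) ^ 2) * (ε * x ^ (k + 1)) := by positivity
    linarith

end Vale.Agent.P042
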