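import Vale.Agent.P042.ODefs

/-! Part K: the singular factor is multiplicative. -/

namespace Vale.Agent.P042

open Finset Polynomial ArithmeticFunction
open scoped ArithmeticFunction.Moebius

namespace K

/-- The character on residues. -/
noncomputable def F (h : ℤ[X]) (a : ℤ) (r : ℕ) (x : ZMod r) : ℂ :=
  e (((a * h.eval ((x.val : ℕ) : ℤ) : ℤ) : ℝ) / r)

lemma F_cast (h : ℤ[X]) (a : ℤ) {r : ℕ} [NeZero r] (n : ℕ) :
    F h a r (n : ZMod r) = e (((a * h.eval (n : ℤ) : ℤ) : ℝ) / r) := by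
  have h1 : (r : ℤ) ∣ (n : ℤ) - (((n : ZMod r).val : ℕ) : ℤ) := by
    rw [ZMod.val_natCast]
    exact (Nat.modEq_iff_dvd.1 (Nat.mod_modEq n r))
  obtain ⟨z, hz⟩ := h1.trans (sub_dvd_eval_sub _ _ h)
  have hr : (r : ℝ) ≠ 0 := Nat.cast_ne_zero.2 (NeZero.ne r)
  rw [F, ← e_add_int _ (a * z), eq_add_of_sub_eq' hz]
  congr 1
  push_cast
  field_simp

lemma sum_zmod {r : ℕ} [NeZero r] (f : ZMod r → ℂ) :
    ∑ n ∈ range r, f (n : ZMod r) = ∑ x, f x := by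
  refine sum_nbij' (fun n => (n : ZMod r)) ZMod.val (fun _ _ => mem_univ _)
    (fun x _ => mem_range.2 (ZMod.val_lt x)) (fun n hn => ZMod.val_cast_of_lt (mem_range.1 hn))
    (fun x _ => ZMod.natCast_zmod_val x) fun _ _ => rfl

lemma U_eq (h : ℤ[X]) (a : ℤ) {r : ℕ} [NeZero r] (m : ℕ) :
    U h a r m = (∑ x : ZMod r, F h a r (m * x)) / r := by
  rw [U, ← sum_zmod]
  congr 1
  exact sum_congr rfl fun n _ => by rw [← Nat.cast_mul, F_cast]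

lemma U_gcd (h : ℤ[X]) (a : ℤ) {r : ℕ} (hr : 1 ≤ r) (m : ℕ) :
    U h a r m = U h a r (Nat.gcd m r) := by
  haveI : NeZero r := ⟨by omega⟩
  obtain ⟨d, hd, u, ⟨u, rfl⟩, hu⟩ := ZMod.eq_unit_mul_divisor (m : ZMod r)
  have k : ∀ (x y g : ℕ) (v : ZMod r), g ∣ r → g ∣ y → (x : ZMod r) = v * y → g ∣ x := by
    intro x y g v h1 h2 h3
    rw [← ZMod.natCast_zmod_val v, ← Nat.cast_mul, ZMod.natCast_eq_natCast_iff] at h3
    exact ((h3.of_dvd h1).dvd_iff dvd_rfl).2 (h2.mul_left _)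
  have e1 : Nat.gcd m r = d := by
    refine Nat.dvd_antisymm (k d m _ (↑u⁻¹) (Nat.gcd_dvd_right _ _) (Nat.gcd_dvd_left _ _) ?_)
      (Nat.dvd_gcd (k m d d u hd dvd_rfl hu) hd)
    rw [hu, Units.inv_mul_cancel_left]
  rw [e1, U_eq, U_eq, hu]
  congr 1
  refine Fintype.sum_equiv u.mulLeft _ _ fun x => ?_
  rw [Units.mulLeft_apply]
  congr 1
  ring

lemma U_mul (h : ℤ[X]) (a1 a2 : ℤ) {r1 r2 : ℕ} (h1 : 1 ≤ r1) (h2 : 1 ≤ r2) (hc : r1.Coprime r2)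
    (m : ℕ) : U h (a1 * r2 + a2 * r1) (r1 * r2) m = U h a1 r1 m * U h a2 r2 m := by
  haveI : NeZero r1 := ⟨by omega⟩
  haveI : NeZero r2 := ⟨by omega⟩
  rw [U_eq, U_eq, U_eq, div_mul_div_comm, Nat.cast_mul, sum_mul_sum, ← sum_product',
    univ_product_univ]
  congr 1
  refine Fintype.sum_equiv (ZMod.chineseRemainder hc).toEquiv _ _ fun x => ?_
  obtain ⟨n, rfl⟩ := ZMod.natCast_zmod_surjective x
  have : (ZMod.chineseRemainder hc).toEquiv (n : ZMod (r1 * r2)) = (n : ZMod r1 × ZMod r2) :=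
    map_natCast (ZMod.chineseRemainder hc) n
  rw [this, Prod.fst_natCast, Prod.snd_natCast, ← Nat.cast_mul, ← Nat.cast_mul, ← Nat.cast_mul,
    F_cast, F_cast, F_cast, ← e_add]
  have k1 : (r1 : ℝ) ≠ 0 := Nat.cast_ne_zero.2 (NeZero.ne r1)
  have k2 : (r2 : ℝ) ≠ 0 := Nat.cast_ne_zero.2 (NeZero.ne r2)
  congr 1
  push_cast
  field_simp

lemma V_eq (h : ℤ[X]) (a : ℤ) (r q : ℕ) :
    V h a r q = ∑ x ∈ q.divisorsAntidiagonal, ((μ x.1 : ℤ) : ℂ) * U h a r x.2 := by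
  rw [V]
  conv_lhs => rw [← Nat.map_swap_divisorsAntidiagonal, sum_map]
  rfl

lemma sum_V (h : ℤ[X]) (a : ℤ) (r : ℕ) : ∀ m > 0, ∑ d ∈ m.divisors, V h a r d = U h a r m := by
  exact sum_eq_iff_sum_mul_moebius_eq.2 fun q _ => (V_eq h a r q).symm

lemma sum_div {m n : ℕ} (hc : m.Coprime n) (f : ℕ → ℂ) :
    ∑ d ∈ (m * n).divisors, f d = ∑ x ∈ m.divisors, ∑ y ∈ n.divisors, f (x * y) := by
  rw [Nat.divisors_mul, Finset.mul_def, sum_image hc.mul_injOn_divisors, sum_product]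

lemma gcd_left {r1 r2 x y : ℕ} (hc : r1.Coprime r2) (hx : x ∣ r1) (hy : y ∣ r2) :
    Nat.gcd (x * y) r1 = x := by
  rw [Nat.Coprime.gcd_mul_right_cancel _ (hc.symm.coprime_dvd_left hy), Nat.gcd_eq_left hx]

lemma V_mul (h : ℤ[X]) (a1 a2 : ℤ) {r1 r2 : ℕ} (h1 : 1 ≤ r1) (h2 : 1 ≤ r2) (hc : r1.Coprime r2)
    {x y : ℕ} (hx : x ∣ r1) (hy : y ∣ r2) :
    V h (a1 * r2 + a2 * r1) (r1 * r2) (x * y) = V h a1 r1 x * V h a2 r2 y := by
  have key := (sum_eq_iff_sum_mul_moebius_eq_on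
    (f := fun q => V h a1 r1 (Nat.gcd q r1) * V h a2 r2 (Nat.gcd q r2))
    (g := U h (a1 * r2 + a2 * r1) (r1 * r2)) {m | m ∣ r1 * r2}
    (fun m n a b => a.trans b)).1 (by
      intro n hn hd
      obtain ⟨m1, m2, d1, d2, rfl⟩ := (Nat.dvd_mul).1 hd
      have p1 : 0 < m1 := Nat.pos_of_mul_pos_right hn
      have p2 : 0 < m2 := Nat.pos_of_mul_pos_left hn
      rw [sum_div ((hc.coprime_dvd_left d1).coprime_dvd_right d2), U_mul h a1 a2 h1 h2 hc,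
        U_gcd h a1 h1, U_gcd h a2 h2, gcd_left hc d1 d2, mul_comm m1, gcd_left hc.symm d2 d1,
        ← sum_V h a1 r1 m1 p1, ← sum_V h a2 r2 m2 p2, sum_mul_sum]
      refine sum_congr rfl fun x hx => sum_congr rfl fun y hy => ?_
      have e1 := (Nat.dvd_of_mem_divisors hx).trans d1
      have e2 := (Nat.dvd_of_mem_divisors hy).trans d2
      rw [gcd_left hc e1 e2, mul_comm x, gcd_left hc.symm e2 e1]) (x * y)
    (Nat.mul_pos (Nat.pos_of_dvd_of_pos hx h1) (Nat.pos_of_dvd_of_pos hy h2))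
    (Nat.mul_dvd_mul hx hy)
  rw [gcd_left hc hx hy, mul_comm x y, gcd_left hc.symm hy hx] at key
  rw [← key, V_eq, mul_comm x y]

lemma kap_mul (s : ℝ) (h : ℤ[X]) (a1 a2 : ℤ) {r1 r2 : ℕ} (h1 : 1 ≤ r1) (h2 : 1 ≤ r2)
    (hc : r1.Coprime r2) :
    kap s h (a1 * r2 + a2 * r1) (r1 * r2) = kap s h a1 r1 * kap s h a2 r2 := by
  rw [kap, kap, kap, sum_div hc, sum_mul_sum]
  refine sum_congr rfl fun x hx => sum_congr rfl fun y hy => ?_
  rw [V_mul h a1 a2 h1 h2 hc (Nat.dvd_of_mem_divisors hx) (Nat.dvd_of_mem_divisors hy),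
    Nat.cast_mul, Real.mul_rpow (Nat.cast_nonneg x) (Nat.cast_nonneg y)]
  push_cast
  ring

end K

theorem kap_pos {s : ℝ} {h : ℤ[X]} (hl : ∀ (p j : ℕ) (a : ℤ), p.Prime →
      0 ≤ (kap s h a (p ^ j)).re ∧ (kap s h a (p ^ j)).im = 0) (a : ℤ) (r : ℕ) (hr : 1 ≤ r) :
    0 ≤ (kap s h a r).re ∧ (kap s h a r).im = 0 := by
  induction r using Nat.recOnPosPrimePosCoprime generalizing a with
  | prime_pow p n hp _ => exact hl p n a hp
  | zero => omega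
  | one => exact hl 2 0 a Nat.prime_two
  | coprime r1 r2 h1 h2 hc i1 i2 =>
    obtain ⟨u, v, huv⟩ := Nat.isCoprime_iff_coprime.2 hc
    have : a = a * v * r2 + a * u * r1 := by linear_combination -a * huv
    rw [this, K.kap_mul s h _ _ h1.le h2.le hc]
    obtain ⟨a1, a2⟩ := i1 (a * v) h1.le
    obtain ⟨b1, b2⟩ := i2 (a * u) h2.le
    rw [Complex.mul_re, Complex.mul_im, a2, b2]
    exact ⟨by simpa using mul_nonneg a1 b1, by simp⟩

end Vale.Agent.P042
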