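import Vale.Agent.P042.OU

/-! Part L: positivity of the local factors. -/

namespace Vale.Agent.P042

open Finset Polynomial ArithmeticFunction
open scoped ArithmeticFunction.Moebius

namespace OL

open OU

/-- The phase polynomial. -/
noncomputable def ph (h : ℤ[X]) (a : ℤ) (r m : ℕ) : ℝ[X] :=
  C ((a : ℝ) / r) * (h.map (Int.castRingHom ℝ)).comp (C (m : ℝ) * X)

lemma ph_coeff (h : ℤ[X]) (a : ℤ) (r m l : ℕ) :
    (ph h a r m).coeff l = a / r * (h.coeff l * m ^ l) := by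
  rw [ph, coeff_C_mul, comp_C_mul_X_coeff, coeff_map]; rfl

lemma ph_eval (h : ℤ[X]) (a : ℤ) (r m : ℕ) (x : ℤ) :
    (ph h a r m).eval (x : ℝ) = ((a * h.eval (m * x) : ℤ) : ℝ) / r := by
  rw [ph, eval_mul, eval_C, eval_comp, eval_mul, eval_C, eval_X]
  have : ((m : ℝ) * x) = Int.castRingHom ℝ (m * x) := by simp
  rw [this, eval_map, eval₂_hom]
  simp; ring

lemma ph_deg (h : ℤ[X]) (a : ℤ) (r m : ℕ) : (ph h a r m).natDegree ≤ h.natDegree :=
  natDegree_le_iff_coeff_eq_zero.2 fun l hl => by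
    rw [ph_coeff, coeff_eq_zero_of_natDegree_lt hl]; simp

lemma ph_cl (h : ℤ[X]) (a : ℤ) {r : ℕ} (hr : 1 ≤ r) (m : ℕ) : Cl r (ph h a r m) := fun l _ =>
  ⟨a * (h.coeff l * m ^ l), by
    have : (r : ℝ) ≠ 0 := by positivity
    rw [ph_coeff]; push_cast; field_simp⟩

lemma U_eq (h : ℤ[X]) (a : ℤ) (r m : ℕ) :
    U h a r m = (∑ n ∈ range r, e ((ph h a r m).eval (n : ℝ))) / r := by
  rw [U]
  congr 1
  refine sum_congr rfl fun n _ => ?_
  have := ph_eval h a r m n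
  rw [Int.cast_natCast] at this
  rw [this, Nat.cast_mul]

lemma U_im {h : ℤ[X]} (ho : ∀ x : ℤ, h.eval (-x) = - h.eval x) (a : ℤ) {r : ℕ} (hr : 1 ≤ r)
    (m : ℕ) : (U h a r m).im = 0 := by
  have hc := ph_cl h a hr m
  set P := ph h a r m with hP
  have h1 : ∑ n ∈ range r, e (P.eval ((n + 1 : ℕ) : ℝ)) = ∑ n ∈ range r, e (P.eval (n : ℝ)) := by
    have a1 := sum_range_succ (fun n : ℕ => e (P.eval (n : ℝ))) r
    have a2 := sum_range_succ' (fun n : ℕ => e (P.eval (n : ℝ))) r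
    have a3 := hc.per 0 1
    simp only [zero_add, mul_one, Int.cast_natCast, Int.cast_zero] at a3
    rw [a1, a3, Nat.cast_zero] at a2
    exact (add_right_cancel a2).symm
  have h2 : (starRingEnd ℂ) (∑ n ∈ range r, e (P.eval (n : ℝ))) =
      ∑ n ∈ range r, e (P.eval (n : ℝ)) := by
    conv_lhs => rw [← h1]
    rw [map_sum, ← sum_range_reflect (fun n : ℕ => e (P.eval (n : ℝ)))]
    refine sum_congr rfl fun n hn => ?_
    have a3 := hc.per (-((n + 1 : ℕ) : ℤ)) 1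
    have a4 : ((-((n + 1 : ℕ) : ℤ) + r * 1 : ℤ) : ℝ) = ((r - 1 - n : ℕ) : ℝ) := by
      have : (-((n + 1 : ℕ) : ℤ) + r * 1 : ℤ) = ((r - 1 - n : ℕ) : ℤ) := by
        have := mem_range.1 hn; omega
      rw [this, Int.cast_natCast]
    rw [← a4, a3, ← e_neg, hP, ph_eval, ← Int.cast_natCast (n + 1), ph_eval, mul_neg, ho]
    congr 1; push_cast; ring
  rw [U_eq, ← hP, Complex.div_natCast_im, Complex.conj_eq_iff_im.1 h2, zero_div]

lemma U_one {h : ℤ[X]} (h0 : h.eval 0 = 0) (a : ℤ) {r : ℕ} (hr : 1 ≤ r) (m : ℕ)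
    (hc : Cl (1 : ℕ) (ph h a r m)) : U h a r m = 1 := by
  have : ∀ n ∈ range r, e ((ph h a r m).eval (n : ℝ)) = 1 := fun n _ => by
    have a3 := hc.per 0 n
    rw [ph_eval h a r m 0, mul_zero, h0] at a3
    simpa using a3
  have hr' : (r : ℂ) ≠ 0 := by exact_mod_cast (by omega : r ≠ 0)
  rw [U_eq, sum_congr rfl this]; simp [hr']

lemma kap_eq (s : ℝ) (h : ℤ[X]) (a : ℤ) (r : ℕ) {p : ℕ} (hp : p.Prime) (j : ℕ) :
    ∑ q ∈ (p ^ j).divisors, (((q : ℝ) ^ (-s) : ℝ) : ℂ) * V h a r q =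
      ((((p : ℝ) ^ (-s)) ^ j : ℝ) : ℂ) * U h a r (p ^ j) + (1 - (((p : ℝ) ^ (-s) : ℝ) : ℂ)) *
        ∑ i ∈ range j, ((((p : ℝ) ^ (-s)) ^ i : ℝ) : ℂ) * U h a r (p ^ i) := by
  have hV : ∀ i, V h a r (p ^ i) = ∑ l ∈ range (i + 1), ((μ (p ^ l) : ℤ) : ℂ) *
      U h a r (p ^ i / p ^ l) := fun i => by
    rw [V, Nat.sum_divisorsAntidiagonal' (fun x y => ((μ y : ℤ) : ℂ) * U h a r x),
      Nat.sum_divisors_prime_pow hp]
  have hV1 : ∀ i, V h a r (p ^ (i + 1)) = U h a r (p ^ (i + 1)) - U h a r (p ^ i) := fun i => by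
    rw [hV, sum_range_succ', sum_range_succ', sum_eq_zero fun l _ => by
      rw [moebius_apply_prime_pow hp (by omega), if_neg (by omega)]; simp]
    rw [moebius_apply_prime_pow hp (by omega), Nat.pow_div (by omega) hp.pos]
    simp; ring
  have hpw : ∀ i : ℕ, ((p ^ i : ℕ) : ℝ) ^ (-s) = ((p : ℝ) ^ (-s)) ^ i := fun i => by
    rw [Nat.cast_pow, ← Real.rpow_natCast, ← Real.rpow_natCast, ← Real.rpow_mul (by positivity),
      ← Real.rpow_mul (by positivity), mul_comm]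
  rw [Nat.sum_divisors_prime_pow hp]
  induction j with
  | zero => simp [V]
  | succ j ih => rw [sum_range_succ, ih, sum_range_succ, hV1, hpw]; push_cast; ring

lemma geo {ρ : ℝ} (h0 : 0 ≤ ρ) (h1 : ρ ≤ 1) (n : ℕ) :
    (1 - ρ) * ∑ i ∈ range n, ρ ^ (n - i) ≤ ρ := by
  induction n with
  | zero => simpa
  | succ n ih =>
    rw [sum_range_succ, sum_congr rfl (g := fun i => ρ * ρ ^ (n - i)) fun i hi => by
      rw [← pow_succ', Nat.succ_sub (mem_range.1 hi).le], ← mul_sum]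
    rw [Nat.add_sub_cancel_left, pow_one]
    nlinarith [mul_le_mul_of_nonneg_left ih h0]

lemma int_of_coprime {x : ℝ} {u v : ℕ} (h : u.Coprime v) (hu : ∃ z : ℤ, u * x = z)
    (hv : ∃ z : ℤ, v * x = z) : ∃ z : ℤ, x = z := by
  obtain ⟨y, hy⟩ := hu
  obtain ⟨z, hz⟩ := hv
  obtain ⟨α, β, hb⟩ := Nat.isCoprime_iff_coprime.2 h
  refine ⟨α * y + β * z, ?_⟩
  have : (α : ℝ) * u + β * v = 1 := by exact_mod_cast hb
  push_cast; rw [← hy, ← hz]; linear_combination (-x) * this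

lemma shift {h : ℤ[X]} {a : ℤ} {r p i v : ℕ} (hc : Cl (p ^ v : ℕ) (ph h a r (p ^ i))) :
    Cl (1 : ℕ) (ph h a r (p ^ (i + v))) := fun l hl => by
  obtain ⟨z, hz⟩ := hc l hl
  obtain ⟨d, rfl⟩ := Nat.exists_eq_add_of_le' hl
  refine ⟨z * (p ^ v) ^ d, ?_⟩
  rw [ph_coeff] at hz ⊢
  push_cast at hz ⊢
  rw [← hz]; ring

end OL

open OL OU in
theorem local_pos (h : ℤ[X]) (ho : ∀ x : ℤ, h.eval (-x) = - h.eval x) :
    ∃ s : ℝ, 0 < s ∧ ∀ (p j : ℕ) (a : ℤ), p.Prime →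
      0 ≤ (kap s h a (p ^ j)).re ∧ (kap s h a (p ^ j)).im = 0 := by
  obtain ⟨C, hC⟩ := complete h.natDegree
  have h0 : h.eval 0 = 0 := by have := ho 0; rw [neg_zero] at this; omega
  set t : ℝ := 1 / (2 * (C + 1)) with ht
  have ht0 : 0 < t := by positivity
  have hρ0 : (2 : ℝ) ^ (-t) < 1 := Real.rpow_lt_one_of_one_lt_of_neg (by norm_num) (by linarith)
  have hρ0' : (0 : ℝ) < (2 : ℝ) ^ (-t) := by positivity
  set κ : ℝ := (1 - (2 : ℝ) ^ (-t)) / 4 with hκ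
  have hκ0 : 0 < κ := by rw [hκ]; linarith
  have hκ1 : κ ≤ 1 := by rw [hκ]; linarith
  refine ⟨t * κ, by positivity, fun p j a hp => ?_⟩
  have hr : 1 ≤ p ^ j := Nat.pow_pos hp.pos
  have hp2 : (2 : ℝ) ≤ p := by exact_mod_cast hp.two_le
  have him := fun m => U_im ho a hr m
  rw [kap, kap_eq _ h a _ hp]
  set η : ℝ := (p : ℝ) ^ (-(t * κ)) with hη
  set ρ : ℝ := (p : ℝ) ^ (-t) with hρ
  have ρ0 : 0 < ρ := by positivity
  have η0 : 0 < η := by positivity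
  have ρ1 : ρ ≤ (2 : ℝ) ^ (-t) := Real.rpow_le_rpow_of_nonpos (by norm_num) hp2 (by linarith)
  have ρη : ρ ≤ η := Real.rpow_le_rpow_of_exponent_le (by linarith) (by nlinarith)
  have η1 : η ≤ 1 := Real.rpow_le_one_of_one_le_of_nonpos (by linarith) (by nlinarith)
  have ρp : ρ ^ (2 * (C + 1)) = (p : ℝ)⁻¹ := by
    rw [hρ, ← Real.rpow_natCast, ← Real.rpow_mul (by positivity), ← Real.rpow_neg_one]
    congr 1; rw [ht]; push_cast; field_simp
  have key : (1 - η) * (2 * ρ) ≤ 1 - ρ := by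
    rcases le_or_gt ρ (1 / 3) with h3 | h3
    · nlinarith
    · have e1 : η = Real.exp (Real.log ρ * κ) := by
        rw [← Real.rpow_def_of_pos ρ0, hρ, ← Real.rpow_mul (by positivity), neg_mul]
      have e2 := Real.add_one_le_exp (Real.log ρ * κ)
      have e3 := Real.one_sub_inv_le_log_of_pos ρ0
      have e4 : ρ⁻¹ < 3 := by rw [inv_lt_comm₀ ρ0 (by norm_num)]; linarith
      have e5 : 1 - η ≤ 2 * κ := by rw [e1]; nlinarith
      nlinarith
  set g : ℕ → ℝ := fun i => (U h a (p ^ j) (p ^ i)).re with hg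
  have hU : ∀ i, U h a (p ^ j) (p ^ i) = g i := fun i => Complex.ext rfl (by simp [him])
  simp only [hU]
  norm_cast
  refine ⟨?_, rfl⟩
  have hj : Cl (1 : ℕ) (ph h a (p ^ j) (p ^ j)) := by
    have := shift (i := 0) (ph_cl h a hr (p ^ 0))
    rwa [zero_add] at this
  classical
  have hex : ∃ i, Cl (1 : ℕ) (ph h a (p ^ j) (p ^ i)) := ⟨j, hj⟩
  obtain ⟨i0, hspec, hmin⟩ : ∃ i0, Cl (1 : ℕ) (ph h a (p ^ j) (p ^ i0)) ∧
      ∀ m, Cl (1 : ℕ) (ph h a (p ^ j) (p ^ m)) → i0 ≤ m :=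
    ⟨Nat.find hex, Nat.find_spec hex, fun _ hm => Nat.find_min' hex hm⟩
  have g1 : ∀ i, i0 ≤ i → g i = 1 := fun i hi => by
    obtain ⟨v, rfl⟩ := Nat.exists_eq_add_of_le hi
    have : Cl (p ^ v : ℕ) (ph h a (p ^ j) (p ^ i0)) := fun l hl => by
      obtain ⟨z, hz⟩ := hspec l hl
      exact ⟨p ^ v * z, by push_cast at hz ⊢; rw [← hz]; ring⟩
    simp only [hg, U_one h0 a hr _ (shift this), Complex.one_re]
  have g2 : ∀ n, i0 ≤ n → η ^ n * g n + (1 - η) * ∑ i ∈ range n, η ^ i * g i =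
      η ^ i0 + (1 - η) * ∑ i ∈ range i0, η ^ i * g i := fun n hn => by
    induction n, hn using Nat.le_induction with
    | base => rw [g1 _ le_rfl, mul_one]
    | succ n hn ih => rw [← ih, sum_range_succ, g1 _ hn, g1 _ (hn.trans n.le_succ)]; ring
  have g3 : ∀ i d, i + d = i0 → |g i| ≤ 2 * ρ ^ (2 * d) := fun i d hd => by
    by_contra hlt
    rw [not_le] at hlt
    have gp : 0 < |g i| := lt_of_le_of_lt (by positivity) hlt
    have gn : ‖U h a (p ^ j) (p ^ i)‖ = |g i| := by rw [hU, Complex.norm_real, Real.norm_eq_abs]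
    have g1' : |g i| ≤ 1 := gn ▸ norm_U_le _ _ _ _
    obtain ⟨q, hq1, hq2, hq3⟩ := hC _ (ph_deg h a (p ^ j) (p ^ i)) _ hr (ph_cl h a hr _)
      (|g i| / 2) (by positivity) (by linarith) (by
        rw [U_eq, norm_div, Complex.norm_natCast, div_eq_iff (by positivity)] at gn
        rw [gn]
        exact mul_le_mul_of_nonneg_right (by linarith) (by positivity))
    obtain ⟨v, q', hq', rfl⟩ := Nat.exists_eq_pow_mul_and_not_dvd (by omega : q ≠ 0) p hp.ne_one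
    have c1 : Cl (p ^ v : ℕ) (ph h a (p ^ j) (p ^ i)) := fun l hl => by
      refine int_of_coprime (u := q') (v := p ^ j)
        (Nat.Coprime.pow_right _ ((Nat.Prime.coprime_iff_not_dvd hp).2 hq').symm) ?_ ?_
      · obtain ⟨z, hz⟩ := hq3 l hl
        exact ⟨z, by rw [← hz]; push_cast; ring⟩
      · obtain ⟨z, hz⟩ := ph_cl h a hr (p ^ i) l hl
        exact ⟨p ^ v * z, by push_cast at hz ⊢; rw [← hz]; ring⟩
    have c2 : i0 ≤ i + v := hmin _ (shift c1)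
    have c3 : (p : ℝ) ^ d ≤ ((p ^ v * q' : ℕ) : ℝ) := by
      have : p ^ d ≤ p ^ v * q' := (Nat.pow_le_pow_right hp.pos (by omega)).trans
        (Nat.le_mul_of_pos_right _ (Nat.pos_of_ne_zero (by rintro rfl; simp at hq')))
      exact_mod_cast this
    have c4 : (|g i| / 2)⁻¹ ^ C ≤ (|g i| / 2)⁻¹ ^ (C + 1) :=
      pow_le_pow_right₀ (by rw [one_le_inv₀ (by positivity)]; linarith) C.le_succ
    have c5 : (|g i| / 2)⁻¹ ^ (C + 1) < (ρ ^ (2 * d))⁻¹ ^ (C + 1) :=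
      pow_lt_pow_left₀ (inv_strictAnti₀ (by positivity) (by linarith)) (by positivity) (by omega)
    have c6 : (ρ ^ (2 * d))⁻¹ ^ (C + 1) = (p : ℝ) ^ d := by
      rw [inv_pow, ← pow_mul, show 2 * d * (C + 1) = 2 * (C + 1) * d by ring, pow_mul, ρp,
        inv_pow, inv_inv]
    linarith
  rw [g2 j (hmin _ hj)]
  have g4 : -(2 * η ^ i0 * ∑ i ∈ range i0, ρ ^ (i0 - i)) ≤ ∑ i ∈ range i0, η ^ i * g i := by
    rw [mul_sum, ← sum_neg_distrib]
    refine sum_le_sum fun i hi => ?_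
    obtain ⟨d, hd⟩ := Nat.exists_eq_add_of_le (mem_range.1 hi).le
    have a1 := (abs_le.1 (g3 i d hd.symm)).1
    have a2 : ρ ^ (2 * d) ≤ η ^ d * ρ ^ d := by
      rw [two_mul, pow_add]
      exact mul_le_mul_of_nonneg_right (pow_le_pow_left₀ ρ0.le ρη d) (by positivity)
    rw [hd, Nat.add_sub_cancel_left, pow_add]
    have a3 : 0 < η ^ i := by positivity
    nlinarith
  have g5 := geo ρ0.le (by linarith) i0
  set S := ∑ i ∈ range i0, ρ ^ (i0 - i) with hS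
  have S0 : 0 ≤ S := sum_nonneg fun _ _ => by positivity
  have g6 : (1 - η) * (2 * S) ≤ 1 := by
    have a1 : 0 < 1 - ρ := by linarith
    refine le_of_mul_le_mul_left ?_ a1
    nlinarith [mul_le_mul_of_nonneg_left g5 (sub_nonneg.2 η1)]
  have a3 : 0 < η ^ i0 := by positivity
  nlinarith [mul_le_mul_of_nonneg_left g4 (sub_nonneg.2 η1), mul_le_mul_of_nonneg_left g6 a3.le]

end Vale.Agent.P042
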