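import Vale.Agent.P042.OB1
import Vale.Agent.P042.OL
import Vale.Agent.P042.OK
import Vale.Agent.P042.OC

namespace Vale.Agent.P042

open Finset Polynomial

namespace B

lemma eval_le (h : ℤ[X]) : ∃ H : ℕ, 1 ≤ H ∧ ∀ n N : ℕ, n < N →
    |h.eval (n : ℤ)| ≤ (H * N ^ h.natDegree : ℕ) := by
  refine ⟨∑ i ∈ range (h.natDegree + 1), (h.coeff i).natAbs + 1, by omega, fun n N hn => ?_⟩
  rw [eval_eq_sum_range]
  refine (abs_sum_le_sum_abs _ _).trans ?_
  push_cast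
  rw [add_mul, sum_mul]
  refine le_add_of_le_of_nonneg (sum_le_sum fun i hi => ?_) (by positivity)
  rw [abs_mul, abs_pow, Nat.abs_cast]
  refine mul_le_mul_of_nonneg_left ?_ (abs_nonneg _)
  have h1 : (n : ℤ) ≤ N := by exact_mod_cast hn.le
  have h2 : (1 : ℤ) ≤ N := by omega
  exact (pow_le_pow_left₀ (by positivity) h1 i).trans
    (pow_le_pow_right₀ h2 (Nat.lt_succ_iff.mp (mem_range.mp hi)))

lemma w_le {s : ℝ} (hs : 0 ≤ s) (Q n : ℕ) : |w s Q n| ≤ (Q : ℝ) ^ 2 := by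
  refine (abs_sum_le_sum_abs _ _).trans ((sum_le_card_nsmul _ _ (Q : ℝ) fun m hm => ?_).trans ?_)
  · have h1 := (mem_Icc.mp hm).1
    have h2 : (0 : ℝ) < m := by exact_mod_cast h1
    split_ifs
    · rw [abs_mul, abs_of_pos h2, mul_comm, ← le_div_iff₀ h2]
      exact abs_be_le hs Q m h1
    · simp
  · simp [sq]

lemma drop {h : ℤ[X]} (h0 : h ≠ 0) (n0 N : ℕ) :
    ((range N).filter fun n => ¬ (n0 ≤ n ∧ h.eval (n : ℤ) ≠ 0)).card ≤ n0 + h.natDegree := by
  set Z := (range N).filter fun n : ℕ => h.eval (n : ℤ) = 0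
  have h1 : Z.card ≤ h.natDegree := by
    rw [← card_image_of_injective Z (Nat.cast_injective (R := ℤ))]
    refine card_le_degree_of_subset_roots fun x hx => ?_
    obtain ⟨n, hn, rfl⟩ := mem_image.mp (mem_val.mp hx)
    exact (mem_roots h0).mpr (mem_filter.mp hn).2
  refine (card_le_card (t := range n0 ∪ Z) fun n hn => ?_).trans ((card_union_le _ _).trans ?_)
  · obtain ⟨a, b⟩ := mem_filter.mp hn
    by_cases c : n < n0
    · exact mem_union_left _ (mem_range.mpr c)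
    · refine mem_union_right _ (mem_filter.mpr ⟨a, ?_⟩)
      by_contra d
      exact b ⟨not_lt.mp c, d⟩
  · rw [card_range]; omega

lemma fin {C ε x a N : ℝ} (hC : 0 < C) (hε : 0 < ε) (hx : 0 < x) (ha : 0 ≤ a) (haN : a ≤ N)
    (h : (1 / 2 - C * ε) * x * a ≤ C * ε * x * (2 * N)) : a ≤ 8 * C * ε * N := by
  have h1 : (1 / 2 - C * ε) * a ≤ C * ε * (2 * N) := by
    refine le_of_mul_le_mul_left ?_ hx
    linarith
  have h2 := mul_pos hC hε
  by_cases h3 : C * ε ≤ 1 / 4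
  · nlinarith
  · nlinarith

lemma step {h : ℤ[X]} (hk : 2 ≤ h.natDegree) (hc : 0 < h.leadingCoeff)
    (ho : ∀ x : ℤ, h.eval (-x) = - h.eval x) (n0 : ℕ) :
    ∃ (C σ : ℝ) (H B : ℕ), 0 < C ∧ 0 < σ ∧ σ ≤ 1 ∧ 1 ≤ H ∧ 1 ≤ B ∧ ∀ (Y N : ℕ) (A : Finset ℤ),
      2 ≤ Y → H * Y ^ B ≤ N → A ⊆ Icc 1 (N : ℤ) →
      (∀ x ∈ A, ∀ y ∈ A, ∀ n : ℕ, n0 ≤ n → x - y = h.eval (n : ℤ) → h.eval (n : ℤ) = 0) →
      (A.card : ℝ) ≤ C * (Y : ℝ) ^ (-σ) * N := by
  obtain ⟨s, hs, hl⟩ := local_pos h ho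
  obtain ⟨C, σ, E, hC, hσ, hσ1, hE, hcore⟩ := core hk hc hs (kap_pos hl)
  obtain ⟨H, hH, hev⟩ := eval_le h
  have h0 : h ≠ 0 := by rintro rfl; simp at hc
  have hdrop := drop h0 n0
  obtain ⟨k, hkk⟩ : ∃ k, h.natDegree = k + 1 := ⟨h.natDegree - 1, by omega⟩
  set C' := C + (n0 + (k + 1)) * (k + 1) with hC'
  have hC'0 : 0 < C' := by positivity
  refine ⟨8 * C', σ, H, E * (k + 1), by positivity, hσ, hσ1, hH, Nat.mul_pos (by omega) (by omega),
    fun Y N A hY hN hA hav => ?_⟩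
  obtain ⟨c1, c2⟩ := hcore Y hY
  set M := Y ^ E with hM
  have hMr : (Y : ℝ) ^ E = M := by rw [hM]; push_cast; rfl
  rw [hMr, hkk] at c1 c2
  have hy2 : (2 : ℝ) ≤ Y := by exact_mod_cast hY
  have hy0 : (0 : ℝ) < Y := by linarith
  have hx0 : (0 : ℝ) < M := by rw [← hMr]; positivity
  set ε := (Y : ℝ) ^ (-σ) with hε
  have hε0 : 0 < ε := Real.rpow_pos_of_pos hy0 _
  have hε1 : (Y : ℝ) ^ 2 ≤ ε * M := by
    have a : (Y : ℝ)⁻¹ ≤ ε := by
      rw [← Real.rpow_neg_one]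
      exact Real.rpow_le_rpow_of_exponent_le (by linarith) (neg_le_neg hσ1)
    have b : (Y : ℝ) ^ 3 ≤ M := by rw [← hMr]; exact pow_le_pow_right₀ (by linarith) hE
    calc (Y : ℝ) ^ 2 = (Y : ℝ)⁻¹ * Y ^ 3 := by field_simp
      _ ≤ _ := by gcongr
  set S := (range M).filter fun n => n0 ≤ n ∧ h.eval (n : ℤ) ≠ 0 with hS
  set c : ℕ → ℝ := fun n => w s Y n * phi h.natDegree M n with hc'
  have hsplit : ∀ θ : ℝ, (T s h Y M θ).re - (n0 + (k + 1)) * (k + 1) * ε * (M : ℝ) ^ (k + 1) ≤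
      (∑ n ∈ S, (c n : ℂ) * e (θ * ((h.eval (n : ℤ) : ℤ) : ℝ))).re := by
    intro θ
    rw [T, ← sum_filter_add_sum_filter_not (range M) fun n => n0 ≤ n ∧ h.eval (n : ℤ) ≠ 0,
      Complex.add_re]
    have a := (Complex.re_le_norm _).trans ((norm_sum_le
      ((range M).filter fun n => ¬ (n0 ≤ n ∧ h.eval (n : ℤ) ≠ 0))
      fun n => (c n : ℂ) * e (θ * ((h.eval (n : ℤ) : ℤ) : ℝ))).trans
      (sum_le_card_nsmul _ _ ((k + 1) * ε * (M : ℝ) ^ (k + 1)) fun n hn => by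
        have b := phi_bd (k := h.natDegree) (mem_range.mp (mem_filter.mp hn).1)
        rw [norm_mul, norm_e, mul_one, Complex.norm_real, Real.norm_eq_abs, hc', abs_mul,
          abs_of_nonneg b.1]
        have b2 := b.2
        rw [hkk, Nat.add_sub_cancel] at b2
        rw [hkk]
        calc _ ≤ (ε * M) * (((k + 1 : ℕ) : ℝ) * (M : ℝ) ^ k) :=
              mul_le_mul ((w_le hs.le Y n).trans hε1) b2 (hkk ▸ b.1) (by positivity)
          _ = _ := by push_cast; ring))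
    have b : (((range M).filter fun n => ¬ (n0 ≤ n ∧ h.eval (n : ℤ) ≠ 0)).card : ℝ) ≤
        n0 + (k + 1) := by
      have := hdrop M
      rw [hkk] at this
      exact_mod_cast this
    rw [nsmul_eq_mul] at a
    have d := mul_le_mul_of_nonneg_right b
      (show 0 ≤ ((k : ℝ) + 1) * ε * (M : ℝ) ^ (k + 1) by positivity)
    simp only [hc'] at a ⊢
    linarith
  have hf := fourier N A hA S (fun n => h.eval (n : ℤ)) c (η := C' * ε * (M : ℝ) ^ (k + 1))
    (τ := (1 / 2 - C' * ε) * (M : ℝ) ^ (k + 1))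
    (fun n hn => (hev n M (mem_range.mp (mem_filter.mp hn).1)).trans (by
      rw [hkk, hM, ← pow_mul]; exact_mod_cast hN))
    (fun n hn x hx y hy hxy => (mem_filter.mp hn).2.2 (hav x hx y hy n (mem_filter.mp hn).2.1 hxy))
    (by positivity) (fun θ => by
      have := hsplit θ
      have := c1 θ
      rw [hC']; linarith) (by
      have a := hsplit 0
      simp only [zero_mul, e_zero, mul_one] at a
      rw [← Complex.ofReal_sum, Complex.ofReal_re] at a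
      rw [hC']; linarith)
  have hAN : (A.card : ℝ) ≤ N := by
    have := card_le_card hA
    rw [Int.card_Icc] at this
    exact_mod_cast (by simpa using this : A.card ≤ N)
  exact fin hC'0 hε0 (pow_pos hx0 (k + 1)) (Nat.cast_nonneg _) hAN hf

end B

theorem main {h : ℤ[X]} (hk : 2 ≤ h.natDegree) (hc : 0 < h.leadingCoeff)
    (ho : ∀ x : ℤ, h.eval (-x) = - h.eval x) (n0 : ℕ) :
    ∃ c C : ℝ, 0 < c ∧ ∀ (N : ℕ) (A : Finset ℤ), A ⊆ Icc 1 (N : ℤ) →
      (∀ x ∈ A, ∀ y ∈ A, ∀ n : ℕ, n0 ≤ n → x - y = h.eval (n : ℤ) → h.eval (n : ℤ) = 0) →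
      (A.card : ℝ) ≤ C * (N : ℝ) ^ (1 - c) := by
  obtain ⟨C, σ, H, B, hC, hσ, hσ1, hH, hB, hst⟩ := B.step hk hc ho n0
  have hB0 : (0 : ℝ) < B := by exact_mod_cast hB
  have hB1 : (1 : ℝ) ≤ B := by exact_mod_cast hB
  set c := σ / B with hcdef
  have hc0 : 0 < c := by positivity
  have hc1 : c ≤ 1 := by rw [hcdef, div_le_one hB0]; linarith
  set K : ℝ := H * 2 ^ B with hK
  have hK1 : 1 ≤ K := one_le_mul_of_one_le_of_one_le (by exact_mod_cast hH)
    (one_le_pow₀ one_le_two)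
  refine ⟨c, (C + 1) * K, hc0, fun N A hA hav => ?_⟩
  have hAN : (A.card : ℝ) ≤ N := by
    have := card_le_card hA
    rw [Int.card_Icc] at this
    exact_mod_cast (by simpa using this : A.card ≤ N)
  rcases Nat.eq_zero_or_pos N with rfl | hN
  · exact hAN.trans (by rw [Nat.cast_zero]; positivity)
  have hN0 : (0 : ℝ) < N := by exact_mod_cast hN
  have hNc : (N : ℝ) = N ^ c * N ^ (1 - c) := by rw [← Real.rpow_add hN0]; simp
  have hp : (0 : ℝ) < N ^ (1 - c) := Real.rpow_pos_of_pos hN0 _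
  have hKc : K ^ c ≤ K := by
    simpa using Real.rpow_le_rpow_of_exponent_le hK1 hc1
  have hex : ∃ Y, N < H * (Y + 1) ^ B := ⟨N, by
    have := Nat.le_self_pow (n := B) (by omega) (N + 1)
    nlinarith⟩
  have h1 := Nat.find_spec hex
  set Y := Nat.find hex with hY
  by_cases hY2 : 2 ≤ Y
  · have h2 := Nat.find_min hex (m := Y - 1) (by omega)
    rw [Nat.sub_add_cancel (by omega), not_lt] at h2
    have hy0 : (0 : ℝ) < Y := by exact_mod_cast (by omega : 0 < Y)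
    have h3 : (N : ℝ) ≤ K * Y ^ B := by
      have : N ≤ H * 2 ^ B * Y ^ B := by
        rw [mul_assoc, ← mul_pow]
        exact h1.le.trans (Nat.mul_le_mul_left _ (Nat.pow_le_pow_left (by omega) _))
      rw [hK]; exact_mod_cast this
    have h4 : (N : ℝ) ^ c ≤ K * (Y : ℝ) ^ σ := by
      refine (Real.rpow_le_rpow hN0.le h3 hc0.le).trans ?_
      rw [Real.mul_rpow (by linarith) (by positivity), ← Real.rpow_natCast,
        ← Real.rpow_mul hy0.le, hcdef, mul_div_cancel₀ _ hB0.ne']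
      exact mul_le_mul_of_nonneg_right hKc (by positivity)
    have h5 : (Y : ℝ) ^ (-σ) * (N : ℝ) ^ c ≤ K := by
      rw [Real.rpow_neg hy0.le, inv_mul_le_iff₀ (by positivity), mul_comm]
      exact h4
    calc (A.card : ℝ) ≤ C * (Y : ℝ) ^ (-σ) * N := hst Y N A hY2 h2 hA hav
      _ = C * ((Y : ℝ) ^ (-σ) * (N : ℝ) ^ c) * N ^ (1 - c) := by
          conv_lhs => rw [hNc]
          ring
      _ ≤ (C + 1) * K * N ^ (1 - c) := by gcongr; linarith
  · have h3 : (N : ℝ) ≤ K := by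
      have : N ≤ H * 2 ^ B :=
        h1.le.trans (Nat.mul_le_mul_left _ (Nat.pow_le_pow_left (by omega) _))
      rw [hK]; exact_mod_cast this
    have h4 : (N : ℝ) ^ c ≤ K := (Real.rpow_le_rpow hN0.le h3 hc0.le).trans hKc
    calc (A.card : ℝ) ≤ N ^ c * N ^ (1 - c) := hAN.trans hNc.le
      _ ≤ (C + 1) * K * N ^ (1 - c) := by
          refine mul_le_mul_of_nonneg_right ?_ hp.le
          nlinarith

end Vale.Agent.P042
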