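import Vale.Agent.P042.ODefs

namespace Vale.Agent.P042

open Finset Polynomial

namespace B

lemma orth {M : ℕ} (hM : 0 < M) {t : ℤ} (h0 : t ≠ 0) (ht : |t| < M) :
    ∑ ξ ∈ range M, e ((ξ : ℝ) / M * t) = 0 := by
  have hM' : (M : ℝ) ≠ 0 := by exact_mod_cast hM.ne'
  have e1 : ∀ ξ : ℕ, e ((ξ : ℝ) / M * t) = e (t / M) ^ ξ := fun ξ => by
    rw [← e_nat_mul]; congr 1; ring
  simp only [e1]
  have e2 : e (t / M) ^ M = 1 := by
    rw [← e_nat_mul, mul_div_cancel₀ _ hM', e_int]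
  have e3 : e (t / M) ≠ 1 := by
    intro h
    obtain ⟨n, hn⟩ := Complex.exp_eq_one_iff.mp h
    have h1 : ((2 * Real.pi * (t / M) : ℝ) : ℂ) = ((n * (2 * Real.pi) : ℝ) : ℂ) := by
      apply mul_right_cancel₀ Complex.I_ne_zero
      rw [hn]; push_cast; ring
    have h2 : 2 * Real.pi * (t / M) = n * (2 * Real.pi) := by exact_mod_cast h1
    have h3 : (t : ℝ) = n * M := by
      have := Real.pi_pos
      field_simp at h2
      linarith
    have h4 : t = n * M := by exact_mod_cast h3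
    rw [h4, abs_mul, abs_of_nonneg (Int.natCast_nonneg M)] at ht
    have h5 : n ≠ 0 := by rintro rfl; simp at h4; exact h0 h4
    have h6 : 1 ≤ |n| := Int.one_le_abs h5
    have h7 : (0 : ℤ) < M := by exact_mod_cast hM
    nlinarith
  rw [geom_sum_eq e3, e2, sub_self, zero_div]

lemma sq_eq (A : Finset ℤ) (θ : ℝ) : ((‖∑ x ∈ A, e (θ * x)‖ ^ 2 : ℝ) : ℂ) =
    ∑ x ∈ A, ∑ y ∈ A, e (θ * ((y - x : ℤ) : ℝ)) := by
  rw [Complex.ofReal_pow, ← Complex.conj_mul', map_sum, sum_mul_sum]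
  refine sum_congr rfl fun x _ => sum_congr rfl fun y _ => ?_
  rw [← e_neg, ← e_add]; congr 1; push_cast; ring

end B

theorem fourier (N : ℕ) (A : Finset ℤ) (hA : A ⊆ Icc 1 (N : ℤ)) (S : Finset ℕ) (d : ℕ → ℤ)
    (c : ℕ → ℝ) (hd : ∀ n ∈ S, |d n| ≤ N) (hav : ∀ n ∈ S, ∀ x ∈ A, ∀ y ∈ A, x - y ≠ d n)
    {η τ : ℝ} (h0 : 0 ≤ η) (hη : ∀ θ : ℝ, -η ≤ (∑ n ∈ S, (c n : ℂ) * e (θ * (d n : ℝ))).re)
    (hτ : τ ≤ ∑ n ∈ S, c n) : τ * A.card ≤ η * (2 * N) := by
  rcases A.eq_empty_or_nonempty with rfl | ⟨x0, hx0⟩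
  · simp; positivity
  have hN : 0 < N := by have := mem_Icc.mp (hA hx0); omega
  have hM : 0 < 2 * N := by omega
  set M := 2 * N with hMdef
  set F : ℕ → ℝ := fun ξ => ‖∑ x ∈ A, e ((ξ : ℝ) / M * x)‖ ^ 2 with hF
  set R : ℕ → ℝ := fun ξ => (∑ n ∈ S, (c n : ℂ) * e ((ξ : ℝ) / M * (d n : ℝ))).re with hR
  have hb : ∀ x ∈ A, ∀ y ∈ A, |y - x| < N := fun x hx y hy => by
    have := mem_Icc.mp (hA hx)
    have := mem_Icc.mp (hA hy)
    rw [abs_lt]; omega
  have h1 : ∑ ξ ∈ range M, F ξ = M * A.card := by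
    have : ((∑ ξ ∈ range M, F ξ : ℝ) : ℂ) = ((M * A.card : ℝ) : ℂ) := by
      rw [Complex.ofReal_sum]
      simp only [hF, B.sq_eq]
      rw [sum_comm]
      have : ∀ x ∈ A, ∑ ξ ∈ range M, ∑ y ∈ A, e ((ξ : ℝ) / M * ((y - x : ℤ) : ℝ)) = M := by
        intro x hx
        rw [sum_comm, sum_eq_single_of_mem x hx]
        · simp
        · intro y hy hyx
          exact B.orth hM (sub_ne_zero.mpr hyx) ((hb x hx y hy).trans_le (by omega))
      rw [sum_congr rfl this, sum_const, nsmul_eq_mul]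
      push_cast; ring
    exact_mod_cast this
  have h2 : ∑ ξ ∈ range M, F ξ * R ξ = 0 := by
    have : ∑ ξ ∈ range M, (F ξ : ℂ) * ∑ n ∈ S, (c n : ℂ) * e ((ξ : ℝ) / M * (d n : ℝ)) = 0 := by
      simp only [hF, B.sq_eq, sum_mul, mul_sum]
      rw [sum_comm]
      refine sum_eq_zero fun n hn => ?_
      rw [sum_comm]
      refine sum_eq_zero fun x hx => ?_
      rw [sum_comm]
      refine sum_eq_zero fun y hy => ?_
      have e1 : ∀ ξ : ℕ, e ((ξ : ℝ) / M * ((y - x : ℤ) : ℝ)) * ((c n : ℂ) *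
          e ((ξ : ℝ) / M * (d n : ℝ))) = c n * e ((ξ : ℝ) / M * ((y - x + d n : ℤ) : ℝ)) := by
        intro ξ
        rw [mul_left_comm, ← e_add]; congr 2; push_cast; ring
      simp only [e1]
      rw [← mul_sum, B.orth hM, mul_zero]
      · have := hav n hn x hx y hy
        omega
      · have a := abs_lt.mp (hb x hx y hy)
        have b := abs_le.mp (hd n hn)
        rw [abs_lt]; omega
    have h3 := congrArg Complex.re this
    rw [Complex.re_sum] at h3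
    simpa only [Complex.re_ofReal_mul, Complex.zero_re] using h3
  have h3 : F 0 * (R 0 + η) ≤ ∑ ξ ∈ range M, F ξ * (R ξ + η) :=
    single_le_sum (f := fun ξ => F ξ * (R ξ + η))
      (fun ξ _ => mul_nonneg (sq_nonneg _) (by linarith [hη ((ξ : ℝ) / M)])) (mem_range.mpr hM)
  have h4 : F 0 = (A.card : ℝ) ^ 2 := by simp [hF]
  have h5 : R 0 = ∑ n ∈ S, c n := by simp [hR]
  simp only [mul_add, sum_add_distrib] at h3
  rw [h2, ← sum_mul, h1, h4, h5] at h3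
  have h6 : (0 : ℝ) < A.card := by exact_mod_cast card_pos.mpr ⟨x0, hx0⟩
  have h7 : (M : ℝ) = 2 * N := by rw [hMdef]; push_cast; ring
  rw [← h7]
  have h8 : (A.card : ℝ) * (τ * A.card) ≤ A.card * (η * M) := by nlinarith [sq_nonneg (A.card : ℝ)]
  exact le_of_mul_le_mul_left h8 h6

end Vale.Agent.P042
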