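import Mathlib

/-! Working definitions for the power saving for odd polynomials (P042). -/

namespace Vale.Agent.P042

open Finset Polynomial ArithmeticFunction
open scoped ArithmeticFunction.Moebius

/-- The additive character. -/
noncomputable def e (x : ℝ) : ℂ := Complex.exp (((2 * Real.pi * x : ℝ) : ℂ) * Complex.I)

/-- Mean of `e (a h(m n) / r)` over `n` modulo `r`. -/
noncomputable def U (h : ℤ[X]) (a : ℤ) (r m : ℕ) : ℂ :=
  (∑ n ∈ range r, e (((a * h.eval ((m * n : ℕ) : ℤ) : ℤ) : ℝ) / r)) / r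

/-- Mean against the Ramanujan sum `c_q`. -/
noncomputable def V (h : ℤ[X]) (a : ℤ) (r q : ℕ) : ℂ :=
  ∑ x ∈ q.divisorsAntidiagonal, ((μ x.2 : ℤ) : ℂ) * U h a r x.1

/-- The singular factor at `a / r`. -/
noncomputable def kap (s : ℝ) (h : ℤ[X]) (a : ℤ) (r : ℕ) : ℂ :=
  ∑ q ∈ r.divisors, (((q : ℝ) ^ (-s) : ℝ) : ℂ) * V h a r q

/-- Coefficients of the truncated weight. -/
noncomputable def be (s : ℝ) (Q m : ℕ) : ℝ :=
  ∑ l ∈ Icc 1 (Q / m), ((m * l : ℕ) : ℝ) ^ (-s) * ((μ l : ℤ) : ℝ)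

/-- The truncated weight: the sum of `c_q(n) q^(-s)` over `q ≤ Q`. -/
noncomputable def w (s : ℝ) (Q n : ℕ) : ℝ :=
  ∑ m ∈ Icc 1 Q, if m ∣ n then (m : ℝ) * be s Q m else 0

/-- The archimedean weight. -/
noncomputable def phi (k X n : ℕ) : ℝ :=
  (((n : ℝ) + 1) ^ k - (n : ℝ) ^ k) * (1 - (n : ℝ) ^ k / (X : ℝ) ^ k)

/-- The exponential sum. -/
noncomputable def T (s : ℝ) (h : ℤ[X]) (Q X : ℕ) (θ : ℝ) : ℂ :=
  ∑ n ∈ range X, ((w s Q n * phi h.natDegree X n : ℝ) : ℂ) * e (θ * ((h.eval (n : ℤ) : ℤ) : ℝ))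

lemma e_add (x y : ℝ) : e (x + y) = e x * e y := by
  simp only [e, ← Complex.exp_add]; congr 1; push_cast; ring

@[simp] lemma e_zero : e 0 = 1 := by simp [e]

@[simp] lemma norm_e (x : ℝ) : ‖e x‖ = 1 := Complex.norm_exp_ofReal_mul_I _

lemma e_int (z : ℤ) : e z = 1 := by
  have := Complex.exp_int_mul_two_pi_mul_I z
  rw [e, ← this]; congr 1; push_cast; ring

lemma e_add_int (x : ℝ) (z : ℤ) : e (x + z) = e x := by rw [e_add, e_int, mul_one]

lemma e_neg (x : ℝ) : e (-x) = (starRingEnd ℂ) (e x) := by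
  rw [e, e, ← Complex.exp_conj]; congr 1
  rw [map_mul, Complex.conj_ofReal, Complex.conj_I]; push_cast; ring

lemma e_nat_mul (n : ℕ) (x : ℝ) : e (n * x) = e x ^ n := by
  induction n with
  | zero => simp
  | succ n ih => rw [pow_succ, ← ih, ← e_add]; congr 1; push_cast; ring

lemma re_e (x : ℝ) : (e x).re = Real.cos (2 * Real.pi * x) := Complex.exp_ofReal_mul_I_re _

lemma norm_e_sub (x y : ℝ) : ‖e x - e y‖ ≤ 7 * |x - y| := by
  have h1 : e x - e y = e y * (e (x - y) - 1) := by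
    rw [mul_sub, ← e_add, mul_one]; congr 2; ring
  rw [h1, norm_mul, norm_e, one_mul, e, mul_comm _ Complex.I]
  refine (Real.norm_exp_I_mul_ofReal_sub_one_le (x := 2 * Real.pi * (x - y))).trans ?_
  rw [Real.norm_eq_abs, abs_mul, abs_of_pos (by positivity : 0 < 2 * Real.pi)]
  have := Real.pi_lt_d2
  have := abs_nonneg (x - y)
  nlinarith

lemma norm_U_le (h : ℤ[X]) (a : ℤ) (r m : ℕ) : ‖U h a r m‖ ≤ 1 := by
  rw [U, norm_div, Complex.norm_natCast]
  refine div_le_one_of_le₀ ((norm_sum_le _ _).trans ?_) (Nat.cast_nonneg r)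
  simp

lemma abs_be_le {s : ℝ} (hs : 0 ≤ s) (Q m : ℕ) (hm : 1 ≤ m) : |be s Q m| ≤ (Q : ℝ) / m := by
  refine (abs_sum_le_sum_abs _ _).trans ((sum_le_card_nsmul _ _ 1 fun l hl => ?_).trans ?_)
  · have h1 : (1 : ℝ) ≤ ((m * l : ℕ) : ℝ) := by
      exact_mod_cast Nat.mul_pos hm (mem_Icc.mp hl).1
    rw [abs_mul, abs_of_nonneg (by positivity)]
    refine mul_le_one₀ (Real.rpow_le_one_of_one_le_of_nonpos h1 (by linarith)) (abs_nonneg _) ?_
    exact_mod_cast abs_moebius_le_one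
  · simpa using Nat.cast_div_le

end Vale.Agent.P042
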