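import Vale.Agent.P042.ODefs

/-! Plan: power saving r_h(N) ≤ C N^(1-c) for every ODD polynomial h (cubes, x^5, x^3 - x, ...).
Lovasz theta bound with SIGNED weights w(n) = sum_(q ≤ Q) c_q(n) q^(-s) (Ramanujan sums).
Each part goes to `Vale/Agent/P042/O<X>.lean`, namespace `Vale.Agent.P042`, statements verbatim,
helper lemmas in a sub namespace.  Never import this file from final files. -/

namespace Vale.Agent.P042.Plan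

open Finset Polynomial

/-- PART V (file OV).  Two elements of S at distance q ≤ 2/δ; γ = q β - z0, |γ| ≤ 2ε.  Some class
mod q has ≥ δX/q elements c + q j, j ≤ X/q, |β c + γ j - z j| ≤ ε.  Each integer z is used by at
most 2ε/|γ| + 1 values j, at most |γ| X/q + 2 integers occur, so δX/q ≤ 4εX/q + 2 + 4ε/|γ|. -/
theorem vino {β ε δ : ℝ} {X : ℕ} (hδ : 0 < δ) (hδ1 : δ ≤ 1) (hε : 0 ≤ ε) (hεδ : ε ≤ δ / 16)
    (hX : 16 / δ ^ 2 ≤ X) (S : Finset ℕ) (hS : S ⊆ Icc 1 X) (hc : δ * X ≤ S.card)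
    (h : ∀ x ∈ S, ∃ z : ℤ, |β * x - z| ≤ ε) :
    ∃ q : ℕ, 1 ≤ q ∧ (q : ℝ) ≤ 2 / δ ∧ ∃ z : ℤ, |q * β - z| ≤ 16 * ε / (δ ^ 2 * X) := sorry

/-- PART W (file OW, imports OV).  Induction on k.  k = 1: geometric sum, |e t - 1| ≥ 4 dist(t, Z).
Step: |S|^2 ≤ X + 2 sum_(1 ≤ d < L) |sum_(n < L - d) e (P (n+d) - P n)|, so at least δ²X/8 values d
have inner sum ≥ δ²X/8; taylor d P - P has degree ≤ k and coeff k = (k+1) d coeff (k+1);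
pigeonhole on q, then `vino` with β = q (k+1) coeff (k+1). -/
theorem weyl (k : ℕ) (hk : 1 ≤ k) : ∃ C : ℕ, ∀ P : ℝ[X], P.natDegree ≤ k → ∀ (X L : ℕ) (δ : ℝ),
    0 < δ → δ ≤ 1 / 2 → L ≤ X → δ⁻¹ ^ C ≤ X → δ * X ≤ ‖∑ n ∈ range L, e (P.eval (n : ℝ))‖ →
    ∃ q : ℕ, 1 ≤ q ∧ (q : ℝ) ≤ δ⁻¹ ^ C ∧ ∃ z : ℤ, |q * P.coeff k - z| ≤ δ⁻¹ ^ C / (X : ℝ) ^ k :=
  sorry

/-- PART U (file OU, imports OW).  Induction on k.  n ↦ e (P n) has period r.  `weyl` with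
X = L = r M, M huge, gives q with q coeff (k+1) an integer (r q coeff is an integer).  The sum
over n < r q is q times the sum, so some b < q has |sum_(n<r) e (P (q n + b))| ≥ δ r; remove the
integer top term of R = P (q x + b), use induction, and P y = R ((y - b)/q) gives q' q^(k+1). -/
theorem complete (k : ℕ) : ∃ C : ℕ, ∀ P : ℝ[X], P.natDegree ≤ k → ∀ r : ℕ, 1 ≤ r →
    (∀ i, 1 ≤ i → ∃ z : ℤ, r * P.coeff i = z) → ∀ δ : ℝ, 0 < δ → δ ≤ 1 / 2 →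
    δ * r ≤ ‖∑ n ∈ range r, e (P.eval (n : ℝ))‖ →
    ∃ q : ℕ, 1 ≤ q ∧ (q : ℝ) ≤ δ⁻¹ ^ C ∧ ∀ i, 1 ≤ i → ∃ z : ℤ, q * P.coeff i = z := sorry

/-- PART L (file OL, imports OU).  g i = U h a (p^j) (p^i) is real (n ↦ -n, oddness; h 0 = 0),
η = p^(-s), kap = η^j g j + (1-η) sum_(i<j) η^i g i.  i0 = least i with all coefficients of
a h(p^i x)/p^j integral (i0 ≤ j); g i = 1 for i ≥ i0, so kap = η^i0 + (1-η) sum_(i<i0) η^i g i.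
For i < i0 `complete` gives q, and p^(v_p q) also clears denominators, so i + v_p q ≥ i0,
q ≥ p^(i0-i), hence |g i| ≤ 4 p^(-(i0-i)/C).  With s ≤ 1/(2C), ρ = p^(-1/(2C)):
(1-η) 4ρ/(1-ρ) ≤ 1, for ρ ≤ 1/5 trivially and for p ≤ 5^(2C) when s is small. -/
theorem local_pos (h : ℤ[X]) (ho : ∀ x : ℤ, h.eval (-x) = - h.eval x) :
    ∃ s : ℝ, 0 < s ∧ ∀ (p j : ℕ) (a : ℤ), p.Prime →
      0 ≤ (kap s h a (p ^ j)).re ∧ (kap s h a (p ^ j)).im = 0 := sorry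

/-- PART K (file OK).  For coprime r1, r2 write a = a1 r2 + a2 r1; for m1 ∣ r1, m2 ∣ r2,
U h a (r1 r2) (m1 m2) = U h a1 r1 m1 * U h a2 r2 m2 (CRT; units permute residues), so
kap s h a (r1 r2) = kap s h a1 r1 * kap s h a2 r2.  `Nat.recOnPosPrimePosCoprime`. -/
theorem kap_pos {s : ℝ} {h : ℤ[X]} (hl : ∀ (p j : ℕ) (a : ℤ), p.Prime →
      0 ≤ (kap s h a (p ^ j)).re ∧ (kap s h a (p ^ j)).im = 0) (a : ℤ) (r : ℕ) (hr : 1 ≤ r) :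
    0 ≤ (kap s h a r).re ∧ (kap s h a r).im = 0 := sorry

/-- PART Z (file OZ).  The first sum is sum_(q ≤ Q) q^(-s) V q.  U h a r m = U h a r (gcd m r)
(m n mod r is uniform on the multiples of gcd m r), so with f = μ * U, U m = sum of f d over
d ∣ m, d ∣ r, and V q = f q if q ∣ r, else 0.  |V q| ≤ card divisors. -/
theorem trunc {s : ℝ} (hs : 0 ≤ s) (h : ℤ[X]) (a : ℤ) {r Q : ℕ} (hr : 1 ≤ r) (hQ : 1 ≤ Q) :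
    ‖∑ m ∈ Icc 1 Q, (be s Q m : ℂ) * U h a r m - kap s h a r‖ ≤
      (r.divisors.card : ℝ) ^ 2 * (Q : ℝ) ^ (-s) ∧ ‖kap s h a r‖ ≤ (r : ℝ) ^ 2 := sorry

/-- PART M (file OM).  Summation by parts (`Finset.sum_range_by_parts`). -/
theorem abel (F G : ℕ → ℂ) (X : ℕ) {B G0 Λ : ℝ} (hG0 : 0 ≤ G0) (hΛ : 0 ≤ Λ)
    (hF : ∀ L ≤ X, ‖∑ n ∈ range L, F n‖ ≤ B) (hG : ∀ n < X, ‖G n‖ ≤ G0)
    (hL : ∀ n, n + 1 < X → ‖G (n + 1) - G n‖ ≤ Λ) :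
    ‖∑ n ∈ range X, F n * G n‖ ≤ B * (G0 + X * Λ) := sorry

/-- PART M.  Partial sums of F - u are bounded by 2 t. -/
theorem period (F G : ℕ → ℂ) (t X : ℕ) (ht : 1 ≤ t) {u : ℂ} {G0 Λ : ℝ} (hG0 : 0 ≤ G0) (hΛ : 0 ≤ Λ)
    (hp : ∀ n, F (n + t) = F n) (h1 : ∀ n, ‖F n‖ ≤ 1) (hu : ∑ n ∈ range t, F n = t * u)
    (hG : ∀ n < X, ‖G n‖ ≤ G0) (hL : ∀ n, n + 1 < X → ‖G (n + 1) - G n‖ ≤ Λ) :
    ‖∑ n ∈ range X, F n * G n - u * ∑ n ∈ range X, G n‖ ≤ 2 * t * (G0 + X * Λ) := sorry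

/-- PART M. -/
theorem phi_bd {k X n : ℕ} (hn : n < X) : 0 ≤ phi k X n ∧ phi k X n ≤ k * (X : ℝ) ^ (k - 1) := sorry

/-- PART M.  Second difference of n^k is at most k² X^(k-2). -/
theorem phi_lip {k X n : ℕ} (hk : 2 ≤ k) (hn : n + 1 < X) :
    |phi k X (n + 1) - phi k X n| ≤ 2 * k ^ 2 * (X : ℝ) ^ (k - 2) := sorry

/-- PART F (file OF).  Compare with sum_(u < X^k) (1 - u/X^k) e (t u), blocks [n^k, (n+1)^k), whose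
real part is 1/2 + |sum_(u < X^k) e (t u)|² / (2 X^k) ≥ 0 (Fejer; induction on X^k). -/
theorem fejer {k X : ℕ} (hk : 1 ≤ k) (hX : 1 ≤ X) (t : ℝ) :
    -((1 + 7 * |t| * (X : ℝ) ^ k) * (k * (X : ℝ) ^ (k - 1))) ≤
      (∑ n ∈ range X, (phi k X n : ℂ) * e (t * (n : ℝ) ^ k)).re := sorry

/-- PART F. -/
theorem sum_phi {k X : ℕ} (hk : 1 ≤ k) (hX : 1 ≤ X) :
    (X : ℝ) ^ k / 2 ≤ ∑ n ∈ range X, phi k X n ∧ ∑ n ∈ range X, phi k X n ≤ (X : ℝ) ^ k := sorry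

/-- PART A (file OA, imports OM).  Expand w, `abel` with F n = if m ∣ n then e (θ h n) else 0. -/
theorem minor {s : ℝ} (hs : 0 ≤ s) {h : ℤ[X]} (hk : 2 ≤ h.natDegree) (Q X : ℕ) (θ : ℝ) {B : ℝ}
    (hB : ∀ m ∈ Icc 1 Q, ∀ L ≤ X,
      ‖∑ n ∈ range L, e (θ * ((h.eval ((m * n : ℕ) : ℤ) : ℤ) : ℝ))‖ ≤ B) :
    ‖T s h Q X θ‖ ≤ (Q : ℝ) ^ 2 * B * (3 * (h.natDegree : ℝ) ^ 2 * (X : ℝ) ^ (h.natDegree - 1)) :=
  sorry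

/-- PART A.  Replace e (β h n) by e (β c n^k) (|h n - c n^k| ≤ H X^(k-1)), then `period` with
F n = if m ∣ n then e (a h n / r) else 0, period m r, mean U h a r m / m; |m be| ≤ Q. -/
theorem major {h : ℤ[X]} (hk : 2 ≤ h.natDegree) : ∃ C : ℝ, 0 ≤ C ∧ ∀ (s : ℝ) (Q X r : ℕ) (a : ℤ)
    (β : ℝ), 0 ≤ s → 1 ≤ X → 1 ≤ r →
    ‖T s h Q X (a / r + β) - (∑ m ∈ Icc 1 Q, (be s Q m : ℂ) * U h a r m) *
      ∑ n ∈ range X, (phi h.natDegree X n : ℂ) *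
        e (β * h.leadingCoeff * (n : ℝ) ^ h.natDegree)‖ ≤
      C * (Q : ℝ) ^ 3 * r * (1 + |β| * (X : ℝ) ^ h.natDegree) * (X : ℝ) ^ (h.natDegree - 1) := sorry

/-- PART C (file OC, lead).  Q = Y, δ = Y^(-4), X = Y^E; `weyl` dichotomy. -/
theorem core {h : ℤ[X]} (hk : 2 ≤ h.natDegree) (hc : 0 < h.leadingCoeff) {s : ℝ} (hs : 0 < s)
    (hp : ∀ (a : ℤ) (r : ℕ), 1 ≤ r → 0 ≤ (kap s h a r).re ∧ (kap s h a r).im = 0) :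
    ∃ (C σ : ℝ) (E : ℕ), 0 < C ∧ 0 < σ ∧ σ ≤ 1 ∧ 3 ≤ E ∧ ∀ Y : ℕ, 2 ≤ Y →
      (∀ θ : ℝ, -(C * (Y : ℝ) ^ (-σ) * ((Y : ℝ) ^ E) ^ h.natDegree) ≤ (T s h Y (Y ^ E) θ).re) ∧
      (1 / 2 - C * (Y : ℝ) ^ (-σ)) * ((Y : ℝ) ^ E) ^ h.natDegree ≤ (T s h Y (Y ^ E) 0).re := sorry

/-- PART B (file OB).  M = 2N, f θ = sum_(x ∈ A) e (θ x); the sum over ξ < M of
|f (ξ/M)|² (re + η) is η M card A (orthogonality) and at least the term ξ = 0. -/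
theorem fourier (N : ℕ) (A : Finset ℤ) (hA : A ⊆ Icc 1 (N : ℤ)) (S : Finset ℕ) (d : ℕ → ℤ)
    (c : ℕ → ℝ) (hd : ∀ n ∈ S, |d n| ≤ N) (hav : ∀ n ∈ S, ∀ x ∈ A, ∀ y ∈ A, x - y ≠ d n)
    {η τ : ℝ} (h0 : 0 ≤ η) (hη : ∀ θ : ℝ, -η ≤ (∑ n ∈ S, (c n : ℂ) * e (θ * (d n : ℝ))).re)
    (hτ : τ ≤ ∑ n ∈ S, c n) : τ * A.card ≤ η * (2 * N) := sorry

/-- PART B (imports OL OK OC OM).  S = the n < X with n ≥ n0 and h n ≠ 0; at most n0 + k terms are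
dropped, each at most Y² k X^(k-1) ≤ k X^k / Y.  |h n| ≤ H X^k.  Given N take the largest Y with
H Y^(E k) ≤ N; small N are absorbed in C. -/
theorem main {h : ℤ[X]} (hk : 2 ≤ h.natDegree) (hc : 0 < h.leadingCoeff)
    (ho : ∀ x : ℤ, h.eval (-x) = - h.eval x) (n0 : ℕ) :
    ∃ c C : ℝ, 0 < c ∧ ∀ (N : ℕ) (A : Finset ℤ), A ⊆ Icc 1 (N : ℤ) →
      (∀ x ∈ A, ∀ y ∈ A, ∀ n : ℕ, n0 ≤ n → x - y = h.eval (n : ℤ) → h.eval (n : ℤ) = 0) →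
      (A.card : ℝ) ≤ C * (N : ℝ) ^ (1 - c) := sorry

end Vale.Agent.P042.Plan
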