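import Vale.Agent.P042.OW

/-! Part U: large complete exponential sums have small denominators. -/

namespace Vale.Agent.P042

open Finset Polynomial

namespace OU

/-- `t` clears the denominators of the nonconstant coefficients. -/
def Cl (t : ℝ) (P : ℝ[X]) : Prop := ∀ i, 1 ≤ i → ∃ z : ℤ, t * P.coeff i = z

lemma mem_iff (x : ℝ) : x ∈ (Int.castRingHom ℝ).range ↔ ∃ z : ℤ, x = z :=
  ⟨fun ⟨z, h⟩ => ⟨z, h.symm⟩, fun ⟨z, h⟩ => ⟨z, h.symm⟩⟩

lemma Cl.comp {t : ℝ} {P : ℝ[X]} (h : Cl t P) (G : ℤ[X]) :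
    Cl t (P.comp (G.map (Int.castRingHom ℝ))) := by
  intro i hi
  rw [← mem_iff, comp_eq_sum_left, Polynomial.sum, finset_sum_coeff, mul_sum]
  refine Subring.sum_mem _ fun j _ => ?_
  rw [coeff_C_mul, ← Polynomial.map_pow, coeff_map, ← mul_assoc]
  rcases Nat.eq_zero_or_pos j with rfl | hj
  · rw [pow_zero, coeff_one, if_neg (by omega), map_zero, mul_zero]; exact zero_mem _
  · exact mul_mem ((mem_iff _).2 (h j hj)) ⟨_, rfl⟩

lemma Cl.taylor {t : ℝ} {P : ℝ[X]} (h : Cl t P) (b : ℤ) : Cl t (taylor (b : ℝ) P) := by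
  have := h.comp (X + C b)
  rwa [Polynomial.map_add, map_X, map_C] at this

lemma Cl.per {r : ℕ} {P : ℝ[X]} (h : Cl r P) (x y : ℤ) :
    e (P.eval ((x + r * y : ℤ) : ℝ)) = e (P.eval (x : ℝ)) := by
  have : P.eval ((x + r * y : ℤ) : ℝ) - P.eval (x : ℝ) ∈ (Int.castRingHom ℝ).range := by
    rw [eval_eq_sum_range, eval_eq_sum_range, ← sum_sub_distrib]
    refine Subring.sum_mem _ fun j _ => ?_
    rcases Nat.eq_zero_or_pos j with rfl | hj
    · simp
    · obtain ⟨c, hc⟩ := sub_dvd_pow_sub_pow (x + r * y) x j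
      obtain ⟨z, hz⟩ := h j hj
      refine (mem_iff _).2 ⟨z * (y * c), ?_⟩
      rw [← mul_sub, ← Int.cast_pow, ← Int.cast_pow, ← Int.cast_sub, hc]
      push_cast
      rw [← hz]; ring
  obtain ⟨z, hz⟩ := (mem_iff _).1 this
  rw [sub_eq_iff_eq_add'.1 hz, e_add_int]

lemma sum_mul (F : ℕ → ℂ) (q r : ℕ) :
    ∑ n ∈ range (q * r), F n = ∑ n ∈ range r, ∑ b ∈ range q, F (q * n + b) := by
  induction r with
  | zero => simp
  | succ r ih => rw [mul_add, mul_one, sum_range_add, ih, sum_range_succ]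

lemma Cl.sum {r : ℕ} {P : ℝ[X]} (h : Cl r P) (M : ℕ) :
    ∑ n ∈ range (r * M), e (P.eval (n : ℝ)) = M * ∑ n ∈ range r, e (P.eval (n : ℝ)) := by
  rw [sum_mul (fun n => e (P.eval (n : ℝ)))]
  rw [sum_congr rfl (g := fun _ => ∑ n ∈ range r, e (P.eval (n : ℝ))), sum_const, card_range,
    nsmul_eq_mul]
  refine fun n _ => sum_congr rfl fun b _ => ?_
  have := h.per b n
  push_cast at this ⊢
  rw [← this, add_comm]

end OU

open OU in
theorem complete (k : ℕ) : ∃ C : ℕ, ∀ P : ℝ[X], P.natDegree ≤ k → ∀ r : ℕ, 1 ≤ r →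
    (∀ i, 1 ≤ i → ∃ z : ℤ, r * P.coeff i = z) → ∀ δ : ℝ, 0 < δ → δ ≤ 1 / 2 →
    δ * r ≤ ‖∑ n ∈ range r, e (P.eval (n : ℝ))‖ →
    ∃ q : ℕ, 1 ≤ q ∧ (q : ℝ) ≤ δ⁻¹ ^ C ∧ ∀ i, 1 ≤ i → ∃ z : ℤ, q * P.coeff i = z := by
  induction k with
  | zero =>
    refine ⟨0, fun P hP r _ _ δ _ _ _ => ⟨1, le_rfl, by simp, fun i hi => ⟨0, ?_⟩⟩⟩
    rw [coeff_eq_zero_of_natDegree_lt (by omega)]; simp
  | succ k ih =>
    obtain ⟨C2, ih⟩ := ih
    obtain ⟨C1, hw⟩ := weyl (k + 1) (by omega)
    refine ⟨C2 + C1 * (k + 1), fun P hP r hr hc δ h0 h1 hs => ?_⟩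
    have hd : 1 ≤ δ⁻¹ := by rw [one_le_inv₀ h0]; linarith
    have hc' : Cl r P := hc
    have hr' : (1 : ℝ) ≤ r := by exact_mod_cast hr
    obtain ⟨M, hM⟩ := exists_nat_gt (δ⁻¹ ^ C1)
    have hM0 : (0 : ℝ) < M := lt_of_le_of_lt (by positivity) hM
    have hM1 : (1 : ℝ) ≤ M := by exact_mod_cast (Nat.cast_pos.1 hM0)
    obtain ⟨q, hq1, hq2, z, hz⟩ := hw P hP (r * M) (r * M) δ h0 h1 le_rfl
      (by push_cast; nlinarith) (by
        rw [hc'.sum, norm_mul, Complex.norm_natCast]; push_cast; nlinarith)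
    have hq0 : (q : ℝ) ≠ 0 := by positivity
    have htop : q * P.coeff (k + 1) = z := by
      obtain ⟨y, hy⟩ := hc (k + 1) (by omega)
      have e1 : ((q * y - r * z : ℤ) : ℝ) = r * (q * P.coeff (k + 1) - z) := by
        push_cast; rw [← hy]; ring
      have e2 : ((r * M : ℕ) : ℝ) ≤ ((r * M : ℕ) : ℝ) ^ (k + 1) :=
        le_self_pow₀ (by push_cast; nlinarith) (by omega)
      have e3 : |((q * y - r * z : ℤ) : ℝ)| < 1 := by
        rw [e1, abs_mul, abs_of_nonneg (by positivity)]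
        refine (mul_le_mul_of_nonneg_left (hz.trans (div_le_div_of_nonneg_left (by positivity)
          (by push_cast; nlinarith) e2)) (by positivity)).trans_lt ?_
        push_cast
        rw [← mul_div_assoc, div_lt_one (by positivity)]
        exact mul_lt_mul_of_pos_left hM (by positivity)
      rw [← Int.cast_abs, ← Int.cast_one, Int.cast_lt, Int.abs_lt_one_iff] at e3
      rw [e3, Int.cast_zero, eq_comm, mul_eq_zero, sub_eq_zero] at e1
      exact e1.resolve_left (by positivity)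
    obtain ⟨b, -, hb⟩ : ∃ b ∈ range q,
        δ * r ≤ ‖∑ n ∈ range r, e (P.eval ((q * n + b : ℕ) : ℝ))‖ := by
      refine exists_le_of_sum_le ⟨0, mem_range.2 hq1⟩ (le_trans ?_ (norm_sum_le _ _))
      rw [sum_comm, ← sum_mul (fun n => e (P.eval (n : ℝ))), mul_comm q, hc'.sum, norm_mul,
        Complex.norm_natCast, sum_const, card_range, nsmul_eq_mul]
      exact mul_le_mul_of_nonneg_left hs (by positivity)
    set P1 := taylor ((b : ℤ) : ℝ) P with hP1
    have d1 : P1.natDegree ≤ k + 1 := by rw [hP1, natDegree_taylor]; exact hP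
    have t1 : P1.coeff (k + 1) = P.coeff (k + 1) := by
      rcases hP.eq_or_lt with h | h
      · rw [← h, hP1, coeff_taylor_natDegree, leadingCoeff]
      · rw [coeff_eq_zero_of_natDegree_lt h,
          coeff_eq_zero_of_natDegree_lt (by rw [hP1, natDegree_taylor]; exact h)]
    set R := P1.comp (C (q : ℝ) * X) - monomial (k + 1) ((z * q ^ k : ℤ) : ℝ) with hR
    have cR : ∀ i, R.coeff i = if i = k + 1 then 0 else P1.coeff i * q ^ i := by
      intro i
      rw [hR, coeff_sub, comp_C_mul_X_coeff, coeff_monomial]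
      by_cases h : i = k + 1
      · rw [if_pos h, if_pos h.symm, h, t1]; push_cast; rw [← htop]; ring
      · rw [if_neg h, if_neg (Ne.symm h), sub_zero]
    obtain ⟨q', hq1', hq2', hcl⟩ := ih R (natDegree_le_iff_coeff_eq_zero.2 fun i hi => by
        rw [cR]; split_ifs with h
        · rfl
        · rw [coeff_eq_zero_of_natDegree_lt (by omega), zero_mul]) r hr (fun i hi => by
        rw [cR]; split_ifs with h
        · exact ⟨0, by simp⟩
        · obtain ⟨y, hy⟩ := hc'.taylor b i hi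
          exact ⟨y * q ^ i, by push_cast; rw [← hy]; ring⟩) δ h0 h1 (by
        refine hb.trans (le_of_eq (congrArg _ (sum_congr rfl fun n _ => ?_)))
        rw [← e_add_int (R.eval _) (z * q ^ k * n ^ (k + 1)), hR, eval_sub, eval_comp,
          eval_monomial, hP1, taylor_eval]
        push_cast
        simp)
    refine ⟨q' * q ^ (k + 1), Nat.mul_pos hq1' (Nat.pow_pos hq1), ?_, ?_⟩
    · push_cast
      rw [pow_add δ⁻¹, pow_mul]
      exact mul_le_mul hq2' (pow_le_pow_left₀ (by positivity) hq2 _) (by positivity)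
        (by positivity)
    · have h3 : Cl ((q' * q ^ (k + 1) : ℕ) : ℝ) P1 := by
        intro i hi
        rcases lt_trichotomy i (k + 1) with h | h | h
        · obtain ⟨y, hy⟩ := hcl i hi
          obtain ⟨d, hd⟩ := Nat.exists_eq_add_of_le h.le
          rw [cR, if_neg h.ne] at hy
          exact ⟨y * q ^ d, by push_cast; rw [← hy, hd]; ring⟩
        · exact ⟨q' * q ^ k * z, by push_cast; rw [h, t1, ← htop]; ring⟩
        · exact ⟨0, by rw [coeff_eq_zero_of_natDegree_lt (by omega)]; simp⟩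
      have h4 := h3.taylor (-b)
      rw [hP1, taylor_taylor, Int.cast_neg, neg_add_cancel, taylor_zero] at h4
      exact h4

end Vale.Agent.P042
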