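import Vale.Agent.P042.ODefs

namespace Vale.Agent.P042

open Finset Polynomial

namespace V

lemma gap {X : ℕ} (S : Finset ℕ) (hS : S ⊆ Icc 1 X) {g : ℕ} (hg : 1 ≤ g)
    (hc : X / g + 1 < S.card) : ∃ a ∈ S, ∃ b ∈ S, a < b ∧ b - a ≤ g := by
  obtain ⟨a, ha, b, hb, hab, h⟩ := exists_ne_map_eq_of_card_lt_of_maps_to
    (t := range (X / g + 1)) (by simpa using hc) (f := fun x => x / g) fun x hx =>
      mem_range.mpr (Nat.lt_succ_of_le (Nat.div_le_div_right (mem_Icc.mp (hS hx)).2))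
  have h1 := Nat.div_add_mod a g
  have h2 := Nat.div_add_mod b g
  have h3 := Nat.mod_lt a hg
  have h4 := Nat.mod_lt b hg
  rw [h] at h1
  rcases lt_or_gt_of_ne hab with h5 | h5
  · exact ⟨a, ha, b, hb, h5, by omega⟩
  · exact ⟨b, hb, a, ha, h5, by omega⟩

lemma card_le_of_diam (J : Finset ℤ) {d : ℝ} (hd : 0 ≤ d) (h : ∀ a ∈ J, ∀ b ∈ J, (a : ℝ) - b ≤ d) :
    (J.card : ℝ) ≤ d + 1 := by
  rcases J.eq_empty_or_nonempty with rfl | hJ
  · simp; linarith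
  have h1 : J ⊆ Icc (J.min' hJ) (J.max' hJ) := fun x hx =>
    mem_Icc.mpr ⟨min'_le _ _ hx, le_max' _ _ hx⟩
  have h2 := card_le_card h1
  have h3 : ((Icc (J.min' hJ) (J.max' hJ)).card : ℤ) = J.max' hJ + 1 - J.min' hJ :=
    Int.card_Icc_of_le _ _ (by have := min'_le_max' J hJ; omega)
  have h4 : (J.card : ℤ) ≤ J.max' hJ + 1 - J.min' hJ := by rw [← h3]; exact_mod_cast h2
  have h5 : (J.card : ℝ) ≤ J.max' hJ + 1 - J.min' hJ := by exact_mod_cast h4
  have := h _ (max'_mem J hJ) _ (min'_mem J hJ)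
  linarith

lemma count {c γ ε Y : ℝ} (hγ : γ ≠ 0) (hε : 0 ≤ ε) (hε1 : ε ≤ 1 / 2) (hY : 0 ≤ Y) (J : Finset ℤ)
    (hJ : ∀ j ∈ J, 0 ≤ (j : ℝ) ∧ (j : ℝ) ≤ Y) (h : ∀ j ∈ J, ∃ z : ℤ, |c + γ * j - z| ≤ ε) :
    (J.card : ℝ) ≤ (2 * ε / |γ| + 1) * (|γ| * Y + 2) := by
  classical
  have hg := abs_pos.mpr hγ
  choose! z hz using h
  have h1 : (J.card : ℝ) = ∑ y ∈ J.image z, ((J.filter fun j => z j = y).card : ℝ) := by
    exact_mod_cast card_eq_sum_card_image z J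
  have h2 : ((J.image z).card : ℝ) ≤ |γ| * Y + 1 + 1 := by
    refine card_le_of_diam _ (by positivity) fun a ha b hb => ?_
    obtain ⟨i, hi, rfl⟩ := mem_image.mp ha
    obtain ⟨j, hj, rfl⟩ := mem_image.mp hb
    have a1 := abs_le.mp (hz i hi)
    have a2 := abs_le.mp (hz j hj)
    have a3 : γ * (i - j) ≤ |γ| * Y := by
      refine (le_abs_self _).trans ?_
      rw [abs_mul]
      refine mul_le_mul_of_nonneg_left (abs_le.mpr ⟨?_, ?_⟩) hg.le <;>
        linarith [hJ i hi, hJ j hj, (hJ i hi).1, (hJ i hi).2, (hJ j hj).1, (hJ j hj).2]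
    linarith [a1.1, a2.2]
  have h3 : ∀ y ∈ J.image z, ((J.filter fun j => z j = y).card : ℝ) ≤ 2 * ε / |γ| + 1 := by
    intro y _
    refine card_le_of_diam _ (by positivity) fun a ha b hb => ?_
    obtain ⟨a1, a2⟩ := mem_filter.mp ha
    obtain ⟨b1, b2⟩ := mem_filter.mp hb
    have c1 := abs_le.mp (hz a a1)
    have c2 := abs_le.mp (hz b b1)
    rw [a2] at c1
    rw [b2] at c2
    rw [le_div_iff₀ hg]
    have c3 : |γ * (a - b)| ≤ 2 * ε := abs_le.mpr ⟨by linarith [c1.1, c2.2], by linarith [c1.2, c2.1]⟩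
    rw [abs_mul] at c3
    nlinarith [le_abs_self ((a : ℝ) - b)]
  rw [h1]
  refine (sum_le_card_nsmul _ _ _ h3).trans ?_
  rw [nsmul_eq_mul, mul_comm]
  exact mul_le_mul_of_nonneg_left (by linarith) (by positivity)

end V

theorem vino {β ε δ : ℝ} {X : ℕ} (hδ : 0 < δ) (hδ1 : δ ≤ 1) (hε : 0 ≤ ε) (hεδ : ε ≤ δ / 16)
    (hX : 16 / δ ^ 2 ≤ X) (S : Finset ℕ) (hS : S ⊆ Icc 1 X) (hc : δ * X ≤ S.card)
    (h : ∀ x ∈ S, ∃ z : ℤ, |β * x - z| ≤ ε) :
    ∃ q : ℕ, 1 ≤ q ∧ (q : ℝ) ≤ 2 / δ ∧ ∃ z : ℤ, |q * β - z| ≤ 16 * ε / (δ ^ 2 * X) := by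
  classical
  have hX1 : 16 ≤ δ ^ 2 * X := by rw [div_le_iff₀ (by positivity)] at hX; linarith
  have hX0 : (0 : ℝ) < X := by
    by_contra hn
    nlinarith [sq_nonneg δ]
  have hX2 : 16 ≤ δ * X := by nlinarith
  set g := ⌊2 / δ⌋₊ with hg
  have g1 : (g : ℝ) ≤ 2 / δ := Nat.floor_le (by positivity)
  have g2 : 2 / δ < g + 1 := Nat.lt_floor_add_one _
  have g3 : 2 ≤ 2 / δ := by rw [le_div_iff₀ hδ]; linarith
  have g4 : 2 ≤ g := Nat.le_floor (by exact_mod_cast g3)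
  have g5 : (2 : ℝ) ≤ g := by exact_mod_cast g4
  obtain ⟨a, ha, b, hb, hab, hq⟩ := V.gap S hS (g := g) (by omega) (by
    have e1 : ((X / g : ℕ) : ℝ) ≤ X / g := Nat.cast_div_le
    have e2 : (X : ℝ) / g ≤ 3 / 4 * (δ * X) := by
      rw [div_lt_iff₀ hδ] at g2
      rw [div_le_iff₀ (by linarith)]
      have : 4 / 3 ≤ δ * g := by nlinarith
      nlinarith
    have e3 : ((X / g + 1 : ℕ) : ℝ) < S.card := by push_cast; linarith
    exact_mod_cast e3)
  set q := b - a with hqdef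
  have hq1 : 1 ≤ q := by omega
  have hq0 : (0 : ℝ) < q := by exact_mod_cast hq1
  have hq2 : (q : ℝ) ≤ 2 / δ := le_trans (by exact_mod_cast hq) g1
  obtain ⟨za, hza⟩ := h a ha
  obtain ⟨zb, hzb⟩ := h b hb
  set γ := q * β - ((zb - za : ℤ) : ℝ) with hγ
  have hγ2 : |γ| ≤ 2 * ε := by
    have : γ = (β * b - zb) - (β * a - za) := by
      rw [hγ, hqdef, Nat.cast_sub hab.le]; push_cast; ring
    rw [this]
    exact (abs_sub _ _).trans (by linarith)
  refine ⟨q, hq1, hq2, zb - za, ?_⟩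
  rw [← hγ]
  by_cases h0 : γ = 0
  · rw [h0, abs_zero]; positivity
  have hg0 := abs_pos.mpr h0
  obtain ⟨c, -, hcard⟩ := exists_le_card_fiber_of_nsmul_le_card_of_maps_to (s := S)
    (t := range q) (f := fun x => x % q) (b := δ * X / q)
    (fun x _ => mem_range.mpr (Nat.mod_lt _ hq1)) ⟨0, mem_range.mpr hq1⟩ (by
      rw [card_range, nsmul_eq_mul, mul_div_cancel₀ _ hq0.ne']; exact hc)
  set S' := S.filter fun x => x % q = c with hS'
  have i1 : (S'.image fun x => ((x / q : ℕ) : ℤ)).card = S'.card := by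
    refine card_image_of_injOn fun x hx y hy hxy => ?_
    have e1 := (mem_filter.mp hx).2
    have e2 := (mem_filter.mp hy).2
    have e3 : x / q = y / q := by exact_mod_cast hxy
    rw [← Nat.div_add_mod x q, ← Nat.div_add_mod y q, e1, e2, e3]
  have i2 := V.count (c := β * c) h0 hε (by linarith) (Y := X / q) (by positivity)
    (S'.image fun x => ((x / q : ℕ) : ℤ)) (by
      intro j hj
      obtain ⟨x, hx, rfl⟩ := mem_image.mp hj
      rw [Int.cast_natCast]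
      refine ⟨Nat.cast_nonneg _, Nat.cast_div_le.trans ?_⟩
      have : (x : ℝ) ≤ X := by exact_mod_cast (mem_Icc.mp (hS (mem_filter.mp hx).1)).2
      gcongr) (by
      intro j hj
      obtain ⟨x, hx, rfl⟩ := mem_image.mp hj
      obtain ⟨z, hz⟩ := h x (mem_filter.mp hx).1
      refine ⟨z - (zb - za) * ((x / q : ℕ) : ℤ), ?_⟩
      have e1 : (x : ℝ) = q * (x / q : ℕ) + c := by
        rw [← (mem_filter.mp hx).2]; exact_mod_cast (Nat.div_add_mod x q).symm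
      rw [e1] at hz
      refine le_of_eq_of_le (congrArg _ ?_) hz
      rw [hγ, Int.cast_sub z, Int.cast_mul, Int.cast_natCast]
      ring)
  rw [i1] at i2
  set Y := (X : ℝ) / q with hY
  have y1 : δ * Y ≤ (2 * ε / |γ| + 1) * (|γ| * Y + 2) := by
    rw [hY, ← mul_div_assoc]; exact hcard.trans i2
  have y2 : (2 * ε / |γ| + 1) * (|γ| * Y + 2) = 2 * ε * Y + |γ| * Y + 4 * ε / |γ| + 2 := by
    field_simp; ring
  have y3 : δ * X / 2 ≤ Y := by
    rw [hY, le_div_iff₀ hq0]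
    rw [le_div_iff₀ hδ] at hq2
    nlinarith
  have y0 : 0 < Y := by positivity
  have y4 : 8 ≤ δ * Y := by nlinarith
  have y5 : δ * Y / 2 ≤ 4 * ε / |γ| := by nlinarith
  rw [le_div_iff₀ hg0] at y5
  rw [le_div_iff₀ (by positivity)]
  nlinarith [mul_le_mul_of_nonneg_left y3 (mul_pos hδ hg0).le]

end Vale.Agent.P042
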