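import Vale.Agent.P042.OV

/-! Part W: the inverse form of Weyl's inequality. -/

namespace Vale.Agent.P042

open Finset Polynomial

namespace W

lemma e_sub_one {t : ℝ} (ht : |t| ≤ 1 / 2) : 4 * |t| ≤ ‖e t - 1‖ := by
  rw [e, mul_comm _ Complex.I, Complex.norm_exp_I_mul_ofReal_sub_one, norm_mul, Real.norm_eq_abs,
    Real.norm_eq_abs, abs_two]
  have hp := Real.pi_pos
  have e1 : 2 * Real.pi * t / 2 = Real.pi * t := by ring
  have h1 := Real.mul_abs_le_abs_sin (x := Real.pi * t) (by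
    rw [abs_mul, abs_of_pos hp]; nlinarith)
  have e2 : 2 / Real.pi * |Real.pi * t| = 2 * |t| := by
    rw [abs_mul, abs_of_pos hp]; field_simp
  rw [e1]; linarith

lemma geom (a b : ℝ) (L : ℕ) : |a - round a| * ‖∑ n ∈ range L, e (a * n + b)‖ ≤ 1 / 2 := by
  set t := a - round a with ht
  have e1 : ∀ n : ℕ, e (a * n + b) = e t ^ n * e b := by
    intro n
    rw [← e_nat_mul, ← e_add, ← e_add_int (n * t + b) (n * round a)]
    congr 1; rw [ht]; push_cast; ring
  simp only [e1]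
  rw [← Finset.sum_mul, norm_mul, norm_e, mul_one]
  have h1 := e_sub_one (t := t) (abs_sub_round a)
  have h2 : ‖∑ n ∈ range L, e t ^ n‖ * ‖e t - 1‖ ≤ 2 := by
    rw [← norm_mul, geom_sum_mul]
    refine (norm_sub_le _ _).trans ?_
    rw [norm_pow, norm_e]; norm_num
  nlinarith [norm_nonneg (∑ n ∈ range L, e t ^ n)]

lemma vdc (a : ℕ → ℂ) (L : ℕ) : ‖∑ n ∈ range L, a n‖ ^ 2 ≤
    2 * ∑ d ∈ range L, ‖∑ n ∈ range (L - d), a (n + d) * (starRingEnd ℂ) (a n)‖ := by
  have h1 : ∀ L, ‖∑ n ∈ range L, a n‖ ^ 2 ≤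
      2 * (∑ m ∈ range L, a m * (starRingEnd ℂ) (∑ n ∈ range (m + 1), a n)).re := by
    intro L
    induction L with
    | zero => simp
    | succ L ih =>
      rw [sum_range_succ _ L, sum_range_succ (fun m => a m * _) L, sum_range_succ a L,
        Complex.add_re]
      generalize ∑ n ∈ range L, a n = S at *
      simp only [Complex.sq_norm, Complex.normSq_apply, Complex.mul_re, Complex.conj_re,
        Complex.conj_im, Complex.add_re, Complex.add_im] at *
      nlinarith [mul_self_nonneg (a L).re, mul_self_nonneg (a L).im]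
  refine (h1 L).trans (mul_le_mul_of_nonneg_left ?_ zero_le_two)
  have h2 : ∑ m ∈ range L, a m * (starRingEnd ℂ) (∑ n ∈ range (m + 1), a n) =
      ∑ d ∈ range L, ∑ n ∈ range (L - d), a (n + d) * (starRingEnd ℂ) (a n) := by
    rw [← Finset.sum_range_diag_flip L fun d n => a (n + d) * (starRingEnd ℂ) (a n)]
    refine Finset.sum_congr rfl fun m _ => ?_
    rw [← Finset.sum_range_reflect a, map_sum, Finset.mul_sum]
    refine Finset.sum_congr rfl fun j hj => ?_
    have := mem_range.1 hj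
    rw [Nat.sub_add_cancel (by omega), Nat.add_sub_cancel]
  rw [h2]
  exact (Complex.re_le_norm _).trans (norm_sum_le _ _)

lemma taylor_co {P : ℝ[X]} {k m : ℕ} (hP : P.natDegree ≤ k + 1) (hm : k ≤ m) (d : ℝ) :
    (taylor d P - P).coeff m = (m + 1) * P.coeff (m + 1) * d := by
  rw [coeff_sub, taylor_coeff, eval_eq_sum_range' (n := 2)
    (by have := natDegree_hasseDeriv_le P m; omega)]
  simp [sum_range_succ, hasseDeriv_coeff, add_comm 1 m]

end W

theorem weyl (k : ℕ) (hk : 1 ≤ k) : ∃ C : ℕ, ∀ P : ℝ[X], P.natDegree ≤ k → ∀ (X L : ℕ) (δ : ℝ),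
    0 < δ → δ ≤ 1 / 2 → L ≤ X → δ⁻¹ ^ C ≤ X → δ * X ≤ ‖∑ n ∈ range L, e (P.eval (n : ℝ))‖ →
    ∃ q : ℕ, 1 ≤ q ∧ (q : ℝ) ≤ δ⁻¹ ^ C ∧ ∃ z : ℤ, |q * P.coeff k - z| ≤ δ⁻¹ ^ C / (X : ℝ) ^ k := by
  classical
  induction k, hk using Nat.le_induction with
  | base =>
    refine ⟨1, fun P hP X L δ h0 h1 _ hX hS => ?_⟩
    have u2 : 2 ≤ δ⁻¹ := by rw [le_inv_comm₀ two_pos h0]; linarith
    rw [pow_one] at hX
    have X0 : (0 : ℝ) < X := by linarith
    refine ⟨1, le_rfl, by rw [pow_one]; push_cast; linarith, round (P.coeff 1), ?_⟩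
    have e1 : ∀ n : ℕ, P.eval (n : ℝ) = P.coeff 1 * n + P.coeff 0 := by
      intro n
      rw [eval_eq_sum_range' (n := 2) (by omega)]
      simp [sum_range_succ, add_comm]
    simp only [e1] at hS
    have h2 := W.geom (P.coeff 1) (P.coeff 0) L
    have h3 := mul_le_mul_of_nonneg_left hS (abs_nonneg (P.coeff 1 - round (P.coeff 1)))
    rw [pow_one, pow_one, Nat.cast_one, one_mul, le_div_iff₀ X0, ← one_div, le_div_iff₀ h0]
    linarith
  | succ k hk ih =>
    obtain ⟨C, ih⟩ := ih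
    refine ⟨15 * C + 15 + k, fun P hP X L δ h0 h1 hL hX hS => ?_⟩
    obtain ⟨u, rfl⟩ : ∃ u : ℝ, δ = u⁻¹ := ⟨δ⁻¹, (inv_inv δ).symm⟩
    have u0 : 0 < u := inv_pos.1 h0
    have u2 : 2 ≤ u := by rw [← inv_inv u, le_inv_comm₀ two_pos h0]; linarith
    have u1 : 1 ≤ u := by linarith
    rw [inv_inv] at hX ⊢
    have pw : ∀ {i j : ℕ}, i ≤ j → u ^ i ≤ u ^ j := fun h => pow_le_pow_right₀ u1 h
    have p2 : ∀ i : ℕ, (2 : ℝ) ^ i ≤ u ^ i := fun i => pow_le_pow_left₀ zero_le_two u2 i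
    have u4 : (16 : ℝ) ≤ u ^ 4 := le_trans (by norm_num) (p2 4)
    have X0 : (0 : ℝ) < X := lt_of_lt_of_le (by positivity) hX
    have X1 : (1 : ℝ) ≤ X := (one_le_pow₀ u1).trans hX
    set I : ℕ → ℝ := fun d => ‖∑ n ∈ range (L - d), e ((taylor (d : ℝ) P - P).eval (n : ℝ))‖ with hI
    have I1 : ∀ d, I d ≤ X := fun d => (norm_sum_le _ _).trans (by
      simp only [norm_e, sum_const, card_range, nsmul_eq_mul, mul_one]
      exact_mod_cast (Nat.sub_le _ _).trans hL)
    have I0 : ∀ d, 0 ≤ I d := fun d => norm_nonneg _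
    have v1 : (u⁻¹ * X) ^ 2 ≤ 2 * ∑ d ∈ range (X + 1), I d := by
      refine (pow_le_pow_left₀ (by positivity) hS 2).trans ((W.vdc _ L).trans ?_)
      refine mul_le_mul_of_nonneg_left (le_trans (le_of_eq ?_)
        (Finset.sum_le_sum_of_subset_of_nonneg (range_subset_range.2 (by omega : L ≤ X + 1))
          fun d _ _ => I0 d)) zero_le_two
      refine Finset.sum_congr rfl fun d _ => ?_
      simp only [hI, eval_sub, taylor_eval]
      simp only [← e_neg, ← e_add, sub_eq_add_neg, Nat.cast_add]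
    set D := (Icc 1 X).filter fun d => (u ^ 5)⁻¹ * X ≤ I d with hD
    have v2 : ∑ d ∈ range (X + 1), I d ≤ X + (D.card * X + X * ((u ^ 5)⁻¹ * X)) := by
      rw [Finset.range_eq_Ico, Finset.sum_eq_sum_Ico_succ_bot (by omega)]
      refine add_le_add (I1 0) ?_
      rw [zero_add, Finset.Ico_add_one_right_eq_Icc,
        ← Finset.sum_filter_add_sum_filter_not _ fun d => (u ^ 5)⁻¹ * X ≤ I d]
      refine add_le_add ((sum_le_card_nsmul _ _ (X : ℝ) fun d _ => I1 d).trans (by simp [hD]))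
        ((sum_le_card_nsmul _ _ ((u ^ 5)⁻¹ * X) fun d hd =>
          (not_le.1 (mem_filter.1 hd).2).le).trans ?_)
      rw [nsmul_eq_mul]
      gcongr
      exact_mod_cast (card_filter_le _ _).trans (by simp)
    have v3 : (u ^ 5)⁻¹ * X ≤ D.card := by
      have a1 : 4 * u ^ 2 ≤ X := by
        refine le_trans ?_ ((pw (by omega : 4 ≤ 15 * C + 15 + k)).trans hX)
        have : (4 : ℝ) ≤ u ^ 2 := le_trans (by norm_num) (p2 2)
        nlinarith
      have a2 : 8 * (u ^ 5)⁻¹ ≤ (u ^ 2)⁻¹ := by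
        have : (8 : ℝ) ≤ u ^ 3 := le_trans (by norm_num) (p2 3)
        rw [← div_eq_mul_inv, ← one_div, div_le_div_iff₀ (by positivity) (by positivity)]
        nlinarith [pow_pos u0 2]
      have a3 : 4 ≤ (u ^ 2)⁻¹ * X := by rw [inv_mul_eq_div, le_div_iff₀ (by positivity)]; exact a1
      have a4 : (u ^ 2)⁻¹ * X ≤ 2 * (1 + D.card + (u ^ 5)⁻¹ * X) := by
        refine le_of_mul_le_mul_right ?_ X0
        rw [mul_pow, inv_pow] at v1
        nlinarith
      nlinarith [mul_le_mul_of_nonneg_right a2 X0.le]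
    have hq : ∀ d ∈ D, ∃ q : ℕ, 1 ≤ q ∧ (q : ℝ) ≤ u ^ (5 * C) ∧ ∃ z : ℤ,
        |q * ((k + 1) * P.coeff (k + 1)) * d - z| ≤ u ^ (5 * C) / (X : ℝ) ^ k := by
      intro d hd
      have := ih (taylor (d : ℝ) P - P) (by
          rw [natDegree_le_iff_coeff_eq_zero]
          intro m hm
          rw [W.taylor_co hP hm.le, coeff_eq_zero_of_natDegree_lt (by omega)]
          simp) X (L - d) (u ^ 5)⁻¹ (by positivity)
        (by rw [one_div]; exact inv_anti₀ two_pos (u2.trans (by simpa using pw (by omega : 1 ≤ 5))))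
        ((Nat.sub_le _ _).trans hL)
        (by rw [inv_inv, ← pow_mul]; exact (pw (by omega)).trans hX) (mem_filter.1 hd).2
      rw [inv_inv, ← pow_mul, W.taylor_co hP le_rfl] at this
      simpa only [mul_assoc] using this
    choose! q hq1 hq2 hq3 using hq
    obtain ⟨q0, hq0, hfib⟩ := Finset.exists_le_card_fiber_of_nsmul_le_card_of_maps_to (s := D)
      (t := Icc 1 ⌊u ^ (5 * C)⌋₊) (f := q) (b := (u ^ (5 * C + 5))⁻¹ * X)
      (fun d hd => mem_Icc.2 ⟨hq1 d hd, Nat.le_floor (hq2 d hd)⟩)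
      (nonempty_Icc.2 (Nat.le_floor (by simpa using one_le_pow₀ u1))) (by
        refine le_trans ?_ v3
        rw [nsmul_eq_mul, Nat.card_Icc, Nat.add_sub_cancel]
        calc _ ≤ u ^ (5 * C) * ((u ^ (5 * C + 5))⁻¹ * X) := by
              gcongr; exact Nat.floor_le (by positivity)
          _ = _ := by rw [pow_add]; field_simp)
    have hX2 : 16 * (u ^ (5 * C + 5)) ^ 2 ≤ X := by
      refine le_trans ?_ ((pw (by omega : 4 + (5 * C + 5) * 2 ≤ 15 * C + 15 + k)).trans hX)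
      rw [pow_add u 4, pow_mul]; gcongr
    have hXk : (X : ℝ) ≤ (X : ℝ) ^ k := by simpa using pow_le_pow_right₀ X1 hk
    obtain ⟨q1, r1, r2, z, r3⟩ := vino (β := q0 * ((k + 1) * P.coeff (k + 1)))
      (ε := u ^ (5 * C) / (X : ℝ) ^ k) (δ := (u ^ (5 * C + 5))⁻¹) (X := X) (by positivity)
      (inv_le_one_of_one_le₀ (one_le_pow₀ u1)) (by positivity)
      (by
        rw [div_le_iff₀ (by positivity), inv_eq_one_div, div_div, div_mul_eq_mul_div, one_mul,
          le_div_iff₀ (by positivity)]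
        have := pw (by omega : 5 * C ≤ 5 * C + 5)
        nlinarith [pow_pos u0 (5 * C + 5)])
      (by rw [inv_pow, div_inv_eq_mul]; exact hX2) _
      ((filter_subset _ _).trans (filter_subset _ _)) hfib
      (fun d hd => by
        have := hq3 d (mem_filter.1 hd).1
        rwa [(mem_filter.1 hd).2] at this)
    have q01 := (mem_Icc.1 hq0).1
    have q02 : (q0 : ℝ) ≤ u ^ (5 * C) :=
      (Nat.cast_le.2 (mem_Icc.1 hq0).2).trans (Nat.floor_le (by positivity))
    refine ⟨q1 * q0 * (k + 1), Nat.mul_pos (Nat.mul_pos r1 q01) (by omega), ?_, z, ?_⟩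
    · rw [div_inv_eq_mul] at r2
      have k1 : (k : ℝ) + 1 ≤ u ^ k := by
        refine le_trans ?_ (p2 k)
        exact_mod_cast Nat.lt_two_pow_self
      push_cast
      calc _ ≤ (u * u ^ (5 * C + 5)) * u ^ (5 * C) * u ^ k := by
            gcongr
            exact r2.trans (by gcongr)
        _ = u ^ (10 * C + 6 + k) := by ring
        _ ≤ _ := pw (by omega)
    · push_cast
      have e1 : (q1 : ℝ) * q0 * (k + 1) * P.coeff (k + 1) =
          q1 * (q0 * ((k + 1) * P.coeff (k + 1))) := by ring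
      rw [e1]
      refine r3.trans ?_
      have e2 : 16 * (u ^ (5 * C) / (X : ℝ) ^ k) / ((u ^ (5 * C + 5))⁻¹ ^ 2 * X) =
          16 * u ^ (15 * C + 10) / (X : ℝ) ^ (k + 1) := by field_simp; ring
      rw [e2]
      gcongr
      calc _ ≤ u ^ 4 * u ^ (15 * C + 10) := by gcongr
        _ = u ^ (15 * C + 14) := by ring
        _ ≤ _ := pw (by omega)

end Vale.Agent.P042
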